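import Vale.Agent.P157.Low.TiltLimitArr
import Vale.Agent.P166F.Low.Defs

/-!
P166: averages over several independent copies of a Gaussian vector as one average at a block covariance,
and their continuous extensions.
-/

namespace Vale.Agent.P166F.Low

open MeasureTheory ProbabilityTheory Complex WithLp Filter
open scoped RealInnerProductSpace Topology MatrixOrder
open Vale.Agent.P157.Low (Mat GE)

variable {ι : Type} [Fintype ι] {n : ℕ}

/-- The flattened index of a replica and a coordinate. -/
noncomputable def flat (n : ℕ) (ι : Type) [Fintype ι] : Fin (Fintype.card (Fin n × ι)) ≃ Fin n × ι :=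
  (Fintype.equivFin (Fin n × ι)).symm

open scoped Classical in
/-- Equal blocks `C`, one for each coordinate. -/
noncomputable def blk (C : Mat n) : Mat (Fintype.card (Fin n × ι)) := fun p q =>
  if (flat n ι p).2 = (flat n ι q).2 then C (flat n ι p).1 (flat n ι q).1 else 0

/-- A function of replicas and coordinates on flattened vectors. -/
noncomputable def onFlat (Θ : (Fin n → ι → ℝ) → ℝ) (x : Fin (Fintype.card (Fin n × ι)) → ℝ) : ℝ :=
  Θ fun a i => x ((flat n ι).symm (a, i))

lemma sum_blk (C : Mat n) (t : Fin (Fintype.card (Fin n × ι)) → ℝ) :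
    ∑ p, ∑ q, t p * t q * blk C p q =
      ∑ i, ∑ a, ∑ b, t ((flat n ι).symm (a, i)) * t ((flat n ι).symm (b, i)) * C a b := by
  classical
  rw [← (flat n ι).symm.sum_comp]
  simp only [← (flat n ι).symm.sum_comp fun q => _ * t q * blk C _ q]
  simp only [blk, Equiv.apply_symm_apply, Fintype.sum_prod_type, mul_ite, mul_zero, Finset.sum_ite_eq,
    Finset.mem_univ, if_true]
  exact Finset.sum_comm

lemma posSemidef_blk {C : Mat n} (hC : (Matrix.of C).PosSemidef) :
    (Matrix.of (blk (ι := ι) C)).PosSemidef := by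
  classical
  have hs : ∀ a b, C a b = C b a := fun a b => by
    simpa using congrFun₂ hC.1 b a
  refine P157.Low.posSemidef_of_sum (fun p q => ?_) fun t => ?_
  · simp only [blk, hs (flat n ι p).1]
    exact if_congr eq_comm rfl rfl
  rw [sum_blk]
  refine Finset.sum_nonneg fun i _ => ?_
  have h := hC.dotProduct_mulVec_nonneg fun a => t ((flat n ι).symm (a, i))
  simpa only [star_trivial, P157.Low.dot_mulVec] using h

lemma continuous_blk : Continuous fun C : Mat n => blk (ι := ι) C := by
  refine continuous_pi fun p => continuous_pi fun q => ?_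
  simp only [blk]
  split_ifs
  · fun_prop
  · exact continuous_const

theorem GV_eq_GE {C : Mat n} (hC : (Matrix.of C).PosSemidef) {Θ : (Fin n → ι → ℝ) → ℝ}
    (hΘ : Measurable Θ) : GV C Θ = GE (blk C) (onFlat Θ) := by
  set μ := multivariateGaussian (0 : EuclideanSpace ℝ (Fin n)) (Matrix.of C)
  set T : (ι → EuclideanSpace ℝ (Fin n)) → Fin (Fintype.card (Fin n × ι)) → ℝ :=
    fun g p => ofLp (g (flat n ι p).2) (flat n ι p).1 with hT
  have hTm : Measurable T := by fun_prop
  have hon : Measurable (onFlat Θ) := hΘ.comp (by fun_prop)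
  have h := P157.Low.integral_eq_GE (μ := Measure.pi fun _ : ι => μ) hTm (posSemidef_blk hC) (fun t => ?_) hon
  · refine Eq.trans ?_ h
    refine integral_congr_ae (Eventually.of_forall fun g => ?_)
    simp [onFlat, hT]
  have e1 : ∀ g : ι → EuclideanSpace ℝ (Fin n), ((∑ l, t l * T g l : ℝ) : ℂ) * I =
      ∑ i, ((⟪g i, toLp 2 fun a => t ((flat n ι).symm (a, i))⟫ : ℝ) : ℂ) * I := fun g => by
    rw [← Finset.sum_mul, ← Complex.ofReal_sum, ← (flat n ι).symm.sum_comp, Fintype.sum_prod_type,
      Finset.sum_comm]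
    simp [hT, PiLp.inner_apply]
  simp only [e1, Complex.exp_sum]
  rw [integral_fintype_prod_eq_prod fun i (x : EuclideanSpace ℝ (Fin n)) =>
    cexp (((⟪x, toLp 2 fun a => t ((flat n ι).symm (a, i))⟫ : ℝ) : ℂ) * I), sum_blk, Complex.ofReal_sum,
    neg_eq_neg_one_mul, mul_div_assoc, Finset.sum_div, Finset.mul_sum, Complex.exp_sum]
  refine Finset.prod_congr rfl fun i _ => ?_
  rw [← charFun_apply, charFun_multivariateGaussian hC, inner_zero_right, P157.Low.dot_mulVec]
  congr 1
  push_cast
  ring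

lemma abs_GV_le (C : Mat n) {Θ : (Fin n → ι → ℝ) → ℝ} {B : ℝ} (hb : ∀ x, |Θ x| ≤ B) : |GV C Θ| ≤ B := by
  have h := norm_integral_le_of_norm_le_const
    (μ := Measure.pi fun _ : ι => multivariateGaussian (0 : EuclideanSpace ℝ (Fin n)) (Matrix.of C))
    (f := fun g => Θ fun a i => ofLp (g i) a) (C := B)
    (Eventually.of_forall fun g => (Real.norm_eq_abs _).trans_le (hb _))
  simpa [GV, Real.norm_eq_abs] using h

/-- A bounded continuous extension of the average to all matrices. -/
theorem exists_GV_ext {Θ : (Fin n → ι → ℝ) → ℝ} (hΘ : Continuous Θ) {B : ℝ} (hb : ∀ x, |Θ x| ≤ B) :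
    ∃ G : Mat n → ℝ, Continuous G ∧ (∀ C, |G C| ≤ B) ∧
      ∀ C, (Matrix.of C).PosSemidef → G C = GV C Θ := by
  obtain ⟨G, hG, hGb, hGe⟩ := P157.Low.exists_GE_ext (Θ := onFlat Θ) (hΘ.comp (by fun_prop)) (fun x => hb _)
  exact ⟨fun C => G (blk (ι := ι) C), hG.comp continuous_blk, fun C => hGb _, fun C hC => by
    beta_reduce
    rw [hGe _ (posSemidef_blk hC), GV_eq_GE hC hΘ.measurable]⟩

/-- Independent Gaussian columns combined with coefficients `v` have the Gram matrix of `v`. -/
theorem gauss_mix {N : ℕ} (v : Fin n → Fin N → ℝ) {Θ : (Fin n → ι → ℝ) → ℝ} (hΘ : Measurable Θ) :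
    ∫ g, Θ (fun a x => ∑ i, v a i * g i x)
        ∂(Measure.pi fun _ : Fin N => Measure.pi fun _ : ι => gaussianReal 0 1) =
      GV (fun a b => ∑ i, v a i * v b i) Θ := by
  have hC : (Matrix.of fun a b => ∑ i, v a i * v b i).PosSemidef := by
    simpa [PiLp.inner_apply, mul_comm] using
      P157.Low.gram_psd fun a => (toLp 2 (v a) : EuclideanSpace ℝ (Fin N))
  set T : (Fin N → ι → ℝ) → Fin (Fintype.card (Fin n × ι)) → ℝ :=
    fun g p => ∑ i, v (flat n ι p).1 i * g i (flat n ι p).2 with hT
  have hTm : Measurable T := by fun_prop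
  have h := P157.Low.integral_eq_GE (μ := Measure.pi fun _ : Fin N => Measure.pi fun _ : ι => gaussianReal 0 1)
    hTm (posSemidef_blk hC) (fun t => ?_) (Θ := onFlat Θ) (hΘ.comp (by fun_prop))
  · rw [GV_eq_GE hC hΘ, ← h]
    refine integral_congr_ae (Eventually.of_forall fun g => ?_)
    simp [onFlat, hT]
  set c : Fin N → ι → ℝ := fun i x => ∑ a, t ((flat n ι).symm (a, x)) * v a i with hc
  have e1 : ∀ g, ((∑ l, t l * T g l : ℝ) : ℂ) * I = ∑ i, ∑ x, ((c i x * g i x : ℝ) : ℂ) * I := fun g => by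
    simp only [← Finset.sum_mul, ← Complex.ofReal_sum]
    congr 2
    rw [← (flat n ι).symm.sum_comp, Fintype.sum_prod_type]
    simp only [hT, hc, Equiv.apply_symm_apply, Finset.mul_sum, Finset.sum_mul]
    rw [Finset.sum_comm]
    refine (Finset.sum_congr rfl fun x _ => Finset.sum_comm).trans (Finset.sum_comm.trans ?_)
    exact Finset.sum_congr rfl fun i _ => Finset.sum_congr rfl fun x _ => Finset.sum_congr rfl fun a _ => by ring
  have e1' : ∀ g, cexp (((∑ l, t l * T g l : ℝ) : ℂ) * I) = ∏ i, ∏ x, cexp (((c i x * g i x : ℝ) : ℂ) * I) :=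
    fun g => by rw [e1, Complex.exp_sum]; exact Finset.prod_congr rfl fun i _ => Complex.exp_sum _ _
  simp only [e1']
  rw [integral_fintype_prod_eq_prod fun i (z : ι → ℝ) => ∏ x, cexp (((c i x * z x : ℝ) : ℂ) * I)]
  have e2 : ∀ i, ∫ z, ∏ x, cexp (((c i x * z x : ℝ) : ℂ) * I) ∂Measure.pi (fun _ : ι => gaussianReal 0 1) =
      ∏ x, cexp (-((c i x ^ 2 : ℝ) : ℂ) / 2) := fun i => by
    rw [integral_fintype_prod_eq_prod fun x (z : ℝ) => cexp (((c i x * z : ℝ) : ℂ) * I)]
    refine Finset.prod_congr rfl fun x _ => ?_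
    have := charFun_gaussianReal (μ := 0) (v := 1) (c i x)
    rw [charFun_apply_real] at this
    push_cast
    rw [this]
    congr 1
    push_cast
    ring
  rw [Finset.prod_congr rfl fun i _ => e2 i]
  simp only [← Complex.exp_sum]
  congr 1
  rw [sum_blk]
  simp only [neg_div, Finset.sum_neg_distrib, ← Finset.sum_div, ← Complex.ofReal_sum]
  congr 3
  simp only [hc, sq, Finset.mul_sum, Finset.sum_mul]
  rw [Finset.sum_comm]
  refine Finset.sum_congr rfl fun x _ => ?_
  rw [Finset.sum_comm]
  refine Finset.sum_congr rfl fun a _ => ?_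
  rw [Finset.sum_comm]
  exact Finset.sum_congr rfl fun b _ => Finset.sum_congr rfl fun i _ => by ring

end Vale.Agent.P166F.Low
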