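import Vale.Agent.P157.Low.TiltLimitSeries
import Vale.Agent.P166F.Low.Basic

/-!
P166: replica averages of base systems: products, marginals, and the series of reweighted averages.
-/

namespace Vale.Agent.P166F.Low

open MeasureTheory ProbabilityTheory Filter
open scoped Topology
open Vale.Agent.P166N.Spectrum (OrthInvLaw)
open Vale.Agent.P157.Low (negCoef)

variable {κ : Type} [DecidableEq κ] {N P n r k : ℕ} {dl : κ → ℝ} {lbl : Fin N → κ} {f : κ} {s : ℝ}
  {y : CIdx Unit P → ℝ} {U : Fin N → Fin N → ℝ} {g : EuclideanSpace ℝ (GIdx Unit P N)}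

lemma sum_prod_exp : ∑ x : Fin k → Fin N → Bool, ∏ l, Real.exp (pertH dl n lbl f s y U g (x l)) =
    (∑ σ, Real.exp (pertH dl n lbl f s y U g σ)) ^ k := by
  rw [← Fintype.prod_sum fun (_ : Fin k) σ => Real.exp (pertH dl n lbl f s y U g σ), Finset.prod_const,
    Finset.card_univ, Fintype.card_fin]

/-- The replica average of a product is the power of the average. -/
lemma pgibbs_prod (F : (Fin N → Bool) → ℝ) :
    pgibbs dl n lbl f s y U g (fun x : Fin k → Fin N → Bool => ∏ l, F (x l)) =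
      pgibbs dl n lbl f s y U g (r := 1) (fun x => F (x 0)) ^ k := by
  have h1 : ∑ x : Fin 1 → Fin N → Bool, (∏ l, Real.exp (pertH dl n lbl f s y U g (x l))) * F (x 0) =
      ∑ σ, Real.exp (pertH dl n lbl f s y U g σ) * F σ := by
    rw [← (Equiv.funUnique (Fin 1) (Fin N → Bool)).symm.sum_comp]
    simp
  simp only [pgibbs, ← Finset.prod_mul_distrib, pow_one]
  simp only [← Fintype.prod_sum fun (_ : Fin k) σ => Real.exp (pertH dl n lbl f s y U g σ) * F σ,
    h1, Finset.prod_const, Finset.card_univ, Fintype.card_fin, div_pow]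

/-- Averages over separate replicas factor. -/
lemma pgibbs_append (F : (Fin r → Fin N → Bool) → ℝ) (G : (Fin k → Fin N → Bool) → ℝ) :
    pgibbs dl n lbl f s y U g (fun x : Fin (r + k) → Fin N → Bool =>
        F (fun l => x (Fin.castAdd k l)) * G (fun l => x (Fin.natAdd r l))) =
      pgibbs dl n lbl f s y U g F * pgibbs dl n lbl f s y U g G := by
  simp only [pgibbs, div_mul_div_comm, ← pow_add]
  congr 1
  rw [Finset.sum_mul_sum, ← Fintype.sum_prod_type', ← (Fin.appendEquiv r k).sum_comp]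
  refine Finset.sum_congr rfl fun p _ => ?_
  simp only [Fin.appendEquiv, Equiv.coe_fn_mk, Fin.prod_univ_add, Fin.append_left, Fin.append_right]
  ring

/-- A replica average of some of the replicas. -/
lemma pgibbs_marg {e : Fin k → Fin r} (he : Function.Injective e) (F : (Fin k → Fin N → Bool) → ℝ) :
    pgibbs dl n lbl f s y U g (fun x : Fin r → Fin N → Bool => F (x ∘ e)) = pgibbs dl n lbl f s y U g F := by
  classical
  set w := fun σ => Real.exp (pertH dl n lbl f s y U g σ)
  set Z := ∑ σ, w σ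
  have hZ : 0 < Z := sum_exp_pertH_pos
  have key : ∀ z : Fin k → Fin N → Bool,
      ∑ x : Fin r → Fin N → Bool, (∏ l, w (x l)) * (if x ∘ e = z then 1 else 0) =
        (∏ l, w (z l)) * Z ^ (r - k) := fun z => by
    have hi : ∀ x : Fin r → Fin N → Bool, (∏ l, w (x l)) * (if x ∘ e = z then (1 : ℝ) else 0) =
        ∏ l, w (x l) * ∏ i, (if e i = l then (if x l = z i then 1 else 0) else 1) := fun x => by
      rw [Finset.prod_mul_distrib, Finset.prod_comm]
      simp only [Finset.prod_ite_eq, Finset.mem_univ, if_true]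
      rw [Fintype.prod_boole]
      congr 1
      split_ifs <;> simp_all [funext_iff]
    simp only [hi]
    rw [← Fintype.prod_sum fun l σ => w σ * ∏ i, (if e i = l then (if σ = z i then 1 else 0) else 1),
      ← Finset.prod_compl_mul_prod (Finset.univ.image e)]
    rw [Finset.prod_image fun a _ b _ h => he h, mul_comm]
    congr 1
    · refine Finset.prod_congr rfl fun i _ => ?_
      rw [Finset.sum_eq_single (z i)]
      · rw [Finset.prod_eq_one fun j _ => ?_, mul_one]
        split_ifs with h1 h2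
        · rfl
        · exact absurd (by rw [he h1]) h2
        · rfl
      · intro σ _ hσ
        rw [Finset.prod_eq_zero (Finset.mem_univ i) (by simp [hσ]), mul_zero]
      · simp
    · rw [Finset.prod_congr rfl fun l hl => ?_, Finset.prod_const, Finset.card_compl,
        Finset.card_image_of_injective _ he, Finset.card_univ, Fintype.card_fin, Fintype.card_fin]
      refine Finset.sum_congr rfl fun σ _ => ?_
      rw [Finset.prod_eq_one fun i _ => if_neg fun h => ?_, mul_one]
      exact Finset.mem_compl.1 hl (Finset.mem_image.2 ⟨i, Finset.mem_univ i, h⟩)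
  have hk : k ≤ r := by simpa using Fintype.card_le_of_injective e he
  show (∑ x : Fin r → Fin N → Bool, (∏ l, w (x l)) * F (x ∘ e)) / Z ^ r =
    (∑ z : Fin k → Fin N → Bool, (∏ l, w (z l)) * F z) / Z ^ k
  have hF : ∀ x : Fin r → Fin N → Bool, (∏ l, w (x l)) * F (x ∘ e) =
      ∑ z, F z * ((∏ l, w (x l)) * if x ∘ e = z then 1 else 0) := fun x => by
    rw [Finset.sum_eq_single (x ∘ e) (fun z _ hz => by simp [Ne.symm hz]) (by simp), if_pos rfl, mul_one,
      mul_comm]
  simp only [hF]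
  rw [Finset.sum_comm]
  simp only [← Finset.mul_sum, key]
  rw [div_eq_div_iff (pow_pos hZ r).ne' (pow_pos hZ k).ne', Finset.sum_mul, Finset.sum_mul]
  refine Finset.sum_congr rfl fun z _ => ?_
  rw [mul_assoc, mul_assoc, ← pow_add, Nat.sub_add_cancel hk]
  ring

lemma Wgt.res_le {ι : Type} {M : ℝ} {Φ : (ι → ℝ) → ℝ} [Fintype ι] (hΦ : Wgt M Φ) (z : ι → ℝ) :
    0 < M ∧ |1 - Φ z / M| ≤ 1 - 1 / M ∧ |Φ z / M| ≤ 1 ∧ 1 - 1 / M < 1 := by
  obtain ⟨h1, h2⟩ := hΦ.range z
  have hM : 0 < M := zero_lt_one.trans_le (h1.trans h2)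
  have q1 : 1 / M ≤ Φ z / M := div_le_div_of_nonneg_right h1 hM.le
  have q2 : Φ z / M ≤ 1 := (div_le_one hM).2 h2
  refine ⟨hM, ?_, ?_, by linarith [one_div_pos.2 hM]⟩
  · rw [abs_of_nonneg (by linarith)]; linarith
  · rw [abs_of_nonneg (div_nonneg (zero_le_one.trans h1) hM.le)]; exact q2

namespace Regime

variable {K : ℕ} {a : Atoms K} {i0 : Fin K} (R : Regime a i0) {β : ℝ}
  {ν : (N : ℕ) → Measure (Fin N → Fin N → ℝ)} {M : ℝ}
  {Φ : (Fld (some i0 : Option (Fin K)) → ℝ) → ℝ}

/-- The series of the log-average. -/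
theorem logAvg_series (hν : ∀ N, OrthInvLaw N (ν N)) (hΦ : Wgt M Φ) (i : ℕ) :
    R.logAvg β ν i Φ = Real.log M - ∑' k : ℕ,
      R.avg β ν i (r := k + 1) (fun U x => ∏ l, (1 - Φ (R.field i U (x l)) / M)) / ((k : ℝ) + 1) := by
  have := R.prob_dlaw hν i
  obtain ⟨hM, -, -, hρ⟩ := Wgt.res_le hΦ 0
  set ρ := 1 - 1 / M
  have hρ0 : 0 ≤ ρ := (abs_nonneg _).trans (Wgt.res_le hΦ 0).2.1
  set p := fun (z : (Fin (R.N i) → Fin (R.N i) → ℝ) × EuclideanSpace ℝ (GIdx Unit (R.P i) (R.N i)))
    {r : ℕ} (Ψ : (Fin r → Fin (R.N i) → Bool) → ℝ) =>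
      pgibbs (dlA a β i0) (R.n i) (R.base i).lbl none (R.s i) (R.y i) z.1 z.2 Ψ with hp
  set F : ℕ → (Fin (R.N i) → Fin (R.N i) → ℝ) × EuclideanSpace ℝ (GIdx Unit (R.P i) (R.N i)) → ℝ :=
    fun k z => p z (fun x : Fin (k + 1) → Fin (R.N i) → Bool =>
      ∏ l, (1 - Φ (R.field i z.1 (x l)) / M)) / ((k : ℝ) + 1) with hF
  have hc : ∀ k, Continuous fun z => F k z := fun k => (continuous_pgibbs
    (Ξ := fun U (x : Fin (k + 1) → Fin (R.N i) → Bool) => ∏ l, (1 - Φ (R.field i U (x l)) / M))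
    fun x => continuous_finsetProd _ fun l _ => continuous_const.sub
      ((hΦ.cont.comp (R.continuous_field i (x l))).div_const M)).div_const _
  have hb : ∀ k z, |F k z| ≤ ρ ^ (k + 1) / ((k : ℝ) + 1) := fun k z => by
    have hk : (0 : ℝ) < (k : ℝ) + 1 := by positivity
    simp only [hF]
    rw [abs_div, abs_of_pos hk]
    refine div_le_div_of_nonneg_right (abs_pgibbs_le fun x => ?_) hk.le
    rw [Finset.abs_prod]
    exact (Finset.prod_le_prod (fun l _ => abs_nonneg _) fun l _ => (Wgt.res_le hΦ _).2.1).trans_eq (by simp [ρ])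
  have hsum : ∀ z, HasSum (fun k => F k z)
      (Real.log M - Real.log (p z (r := 1) fun x => Φ (R.field i z.1 (x 0)))) := fun z => by
    set m := p z (r := 1) fun x => 1 - Φ (R.field i z.1 (x 0)) / M
    have hm : |m| ≤ ρ := abs_pgibbs_le fun x => (Wgt.res_le hΦ _).2.1
    have hI : p z (r := 1) (fun x => Φ (R.field i z.1 (x 0))) = M * (1 - m) := by
      have h1 : m + p z (r := 1) (fun x => Φ (R.field i z.1 (x 0)) / M) = 1 := by
        simp only [m, hp]
        rw [← pgibbs_add]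
        simpa using pgibbs_const (r := 1) (1 : ℝ)
      have h2 : p z (r := 1) (fun x => Φ (R.field i z.1 (x 0)) / M) =
          M⁻¹ * p z (r := 1) fun x => Φ (R.field i z.1 (x 0)) := by
        simp only [hp, div_eq_inv_mul]; exact pgibbs_mul_left _
      rw [show 1 - m = p z (r := 1) (fun x => Φ (R.field i z.1 (x 0)) / M) by linarith, h2]
      field_simp
    have h := Real.hasSum_pow_div_log_of_abs_lt_one (hm.trans_lt hρ)
    convert h using 1
    · funext k
      simp only [hF, hp, m]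
      rw [pgibbs_prod fun σ => 1 - Φ (R.field i z.1 σ) / M]
    · rw [hI, Real.log_mul hM.ne' (by linarith [(abs_le.1 hm).2])]
      ring
  have htot := P157.Low.hasSum_integral_bdd (μ := R.dlaw ν i) (fun k => (hc k).measurable) hb
    (P157.Low.summable_pow_div hρ0 hρ) hsum
  have hlog : Integrable (fun z => Real.log (p z (r := 1) fun x => Φ (R.field i z.1 (x 0)))) (R.dlaw ν i) :=
    R.integrable_of_orth hν i ((continuous_pgibbs
      (Ξ := fun U (x : Fin 1 → Fin (R.N i) → Bool) => Φ (R.field i U (x 0)))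
      fun x => hΦ.cont.comp (R.continuous_field i (x 0))).log fun z =>
        (zero_lt_one.trans_le (R.one_le_norm hΦ i z.1 z.2)).ne') (B := Real.log M) fun z _ => by
      rw [abs_of_nonneg (Real.log_nonneg (R.one_le_norm hΦ i z.1 z.2))]
      exact Real.log_le_log (zero_lt_one.trans_le (R.one_le_norm hΦ i z.1 z.2)) (R.norm_le hΦ i z.1 z.2)
  rw [integral_sub (integrable_const _) hlog, integral_const, probReal_univ, one_smul] at htot
  have e : R.logAvg β ν i Φ = ∫ z, Real.log (p z (r := 1) fun x => Φ (R.field i z.1 (x 0))) ∂(R.dlaw ν i) := rfl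
  have e2 : ∀ k : ℕ, R.avg β ν i (r := k + 1) (fun U x => ∏ l, (1 - Φ (R.field i U (x l)) / M)) /
      ((k : ℝ) + 1) = ∫ z, F k z ∂(R.dlaw ν i) := fun k => (integral_div _ _).symm
  rw [e, tsum_congr e2, htot.tsum_eq]
  ring

/-- The series of a reweighted average. -/
theorem tiltAvg_series (hν : ∀ N, OrthInvLaw N (ν N)) (hΦ : Wgt M Φ) (i : ℕ) {r : ℕ}
    {Θ : (Fin (R.N i) → Fin (R.N i) → ℝ) → (Fin r → Fin (R.N i) → Bool) → ℝ}
    (hΘ : ∀ x, Continuous fun U => Θ U x) {B : ℝ} (hB : ∀ U x, |Θ U x| ≤ B) :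
    R.tiltAvg β ν i Φ Θ = ∑' k : ℕ, (negCoef r k : ℝ) * R.avg β ν i (r := r + k) (fun U x =>
      ((∏ l, Φ (R.field i U (x (Fin.castAdd k l))) / M) * Θ U (fun l => x (Fin.castAdd k l))) *
        ∏ l, (1 - Φ (R.field i U (x (Fin.natAdd r l))) / M)) := by
  have := R.prob_dlaw hν i
  obtain ⟨hM, -, -, hρ⟩ := Wgt.res_le hΦ 0
  set ρ := 1 - 1 / M
  have hρ0 : 0 ≤ ρ := (abs_nonneg _).trans (Wgt.res_le hΦ 0).2.1
  set p := fun (z : (Fin (R.N i) → Fin (R.N i) → ℝ) × EuclideanSpace ℝ (GIdx Unit (R.P i) (R.N i)))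
    {r : ℕ} (Ψ : (Fin r → Fin (R.N i) → Bool) → ℝ) =>
      pgibbs (dlA a β i0) (R.n i) (R.base i).lbl none (R.s i) (R.y i) z.1 z.2 Ψ with hp
  set T : (Fin (R.N i) → Fin (R.N i) → ℝ) → (Fin r → Fin (R.N i) → Bool) → ℝ :=
    fun U x => (∏ l, Φ (R.field i U (x l)) / M) * Θ U x with hT
  set F : ℕ → (Fin (R.N i) → Fin (R.N i) → ℝ) × EuclideanSpace ℝ (GIdx Unit (R.P i) (R.N i)) → ℝ :=
    fun k z => (negCoef r k : ℝ) * p z (fun x : Fin (r + k) → Fin (R.N i) → Bool =>
      T z.1 (fun l => x (Fin.castAdd k l)) *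
        ∏ l, (1 - Φ (R.field i z.1 (x (Fin.natAdd r l))) / M)) with hF
  have hTc : ∀ x, Continuous fun U => T U x := fun x => (continuous_finsetProd _ fun l _ =>
    (hΦ.cont.comp (R.continuous_field i (x l))).div_const M).mul (hΘ x)
  have hTb : ∀ U x, |T U x| ≤ B := fun U x => by
    rw [hT, abs_mul, Finset.abs_prod, ← one_mul B]
    exact mul_le_mul ((Finset.prod_le_prod (fun l _ => abs_nonneg _) fun l _ =>
      (Wgt.res_le hΦ _).2.2.1).trans_eq (by simp)) (hB U x) (abs_nonneg _) zero_le_one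
  have hc : ∀ k, Continuous fun z => F k z := fun k => (continuous_pgibbs
    (Ξ := fun U (x : Fin (r + k) → Fin (R.N i) → Bool) => T U (fun l => x (Fin.castAdd k l)) *
      ∏ l, (1 - Φ (R.field i U (x (Fin.natAdd r l))) / M))
    fun x => (hTc _).mul (continuous_finsetProd _ fun l _ => continuous_const.sub
      ((hΦ.cont.comp (R.continuous_field i (x (Fin.natAdd r l)))).div_const M))).const_mul _
  have hb : ∀ k z, |F k z| ≤ (negCoef r k : ℝ) * (B * ρ ^ k) := fun k z => by
    simp only [hF]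
    rw [abs_mul, Nat.abs_cast]
    refine mul_le_mul_of_nonneg_left (abs_pgibbs_le fun x => ?_) (Nat.cast_nonneg' _)
    rw [abs_mul, Finset.abs_prod]
    exact mul_le_mul (hTb _ _) ((Finset.prod_le_prod (fun l _ => abs_nonneg _) fun l _ =>
      (Wgt.res_le hΦ _).2.1).trans_eq (by simp [ρ])) (Finset.prod_nonneg fun _ _ => abs_nonneg _)
      ((abs_nonneg _).trans (hTb z.1 fun l => x (Fin.castAdd k l)))
  have hsum : ∀ z, HasSum (fun k => F k z) (p z (fun x : Fin r → Fin (R.N i) → Bool =>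
      (∏ l, Φ (R.field i z.1 (x l))) * Θ z.1 x) / p z (r := 1) (fun x => Φ (R.field i z.1 (x 0))) ^ r) :=
    fun z => by
    set m := p z (r := 1) fun x => 1 - Φ (R.field i z.1 (x 0)) / M
    have hm : |m| ≤ ρ := abs_pgibbs_le fun x => (Wgt.res_le hΦ _).2.1
    have h1 : m + p z (r := 1) (fun x => Φ (R.field i z.1 (x 0)) / M) = 1 := by
      simp only [m, hp]
      rw [← pgibbs_add]
      simpa using pgibbs_const (r := 1) (1 : ℝ)
    have h2 : p z (r := 1) (fun x => Φ (R.field i z.1 (x 0)) / M) =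
        M⁻¹ * p z (r := 1) fun x => Φ (R.field i z.1 (x 0)) := by
      simp only [hp, div_eq_inv_mul]; exact pgibbs_mul_left _
    have hI : p z (r := 1) (fun x => Φ (R.field i z.1 (x 0))) = M * (1 - m) := by
      rw [show 1 - m = p z (r := 1) (fun x => Φ (R.field i z.1 (x 0)) / M) by linarith, h2]
      field_simp
    have h3 : p z (T z.1) = (M ^ r)⁻¹ * p z (fun x : Fin r → Fin (R.N i) → Bool =>
        (∏ l, Φ (R.field i z.1 (x l))) * Θ z.1 x) := by
      simp only [hp]
      rw [← pgibbs_mul_left]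
      congr 1
      funext x
      simp only [hT]
      rw [Finset.prod_div_distrib, Finset.prod_const, Finset.card_univ, Fintype.card_fin]
      ring
    have h := (P157.Low.hasSum_negCoef_q r (hm.trans_lt hρ)).mul_left (p z (T z.1))
    rw [show p z (fun x : Fin r → Fin (R.N i) → Bool => (∏ l, Φ (R.field i z.1 (x l))) * Θ z.1 x) /
        p z (r := 1) (fun x => Φ (R.field i z.1 (x 0))) ^ r = p z (T z.1) * ((1 - m) ^ r)⁻¹ from by
      rw [hI, h3, mul_pow, mul_comm (M ^ r)⁻¹, mul_assoc, ← mul_inv, div_eq_mul_inv]]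
    refine h.congr_fun fun k => ?_
    simp only [hF, hp]
    rw [pgibbs_append (T z.1) (fun x : Fin k → Fin (R.N i) → Bool =>
      ∏ l, (1 - Φ (R.field i z.1 (x l)) / M)), pgibbs_prod fun σ => 1 - Φ (R.field i z.1 σ) / M]
    simp only [m, hp]
    ring
  have htot := P157.Low.hasSum_integral_bdd (μ := R.dlaw ν i) (fun k => (hc k).measurable) hb
    (P157.Low.summable_negCoef r hρ0 hρ B) hsum
  have e2 : ∀ k : ℕ, (negCoef r k : ℝ) * R.avg β ν i (r := r + k) (fun U x =>
      ((∏ l, Φ (R.field i U (x (Fin.castAdd k l))) / M) * Θ U (fun l => x (Fin.castAdd k l))) *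
        ∏ l, (1 - Φ (R.field i U (x (Fin.natAdd r l))) / M)) = ∫ z, F k z ∂(R.dlaw ν i) := fun k =>
    (integral_const_mul _ _).symm
  rw [tsum_congr e2, htot.tsum_eq]
  rfl

end Regime

end Vale.Agent.P166F.Low
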