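import Vale.Agent.P157.Low.TiltLimitArr
import Vale.Agent.P166F.Low.Closed
import Vale.Agent.P166F.Low.Fields.Series
import Vale.Agent.P166F.Low.Fields.Cov

/-!
P166: the series of discretisations of an array with several fields tend to those of the array.
-/

namespace Vale.Agent.P166F.Low

open MeasureTheory ProbabilityTheory Filter
open scoped Topology
open Vale.Agent.P157.Low (Mat LMat Arr Discr incr qmat lcov negCoef)

variable {ι : Type} [Fintype ι] {A : Arr} {c M : ℝ} {Φ : (ι → ℝ) → ℝ} {n : ℕ}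

/-- The log series at the array scaled by `c`. -/
noncomputable def logArrV (A : Arr) (c M : ℝ) (Φ : (ι → ℝ) → ℝ) : ℝ :=
  Real.log M - ∑' k : ℕ, (∫ R, GV (fun u v => c * R u v) (fun h : Fin (k + 1) → ι → ℝ =>
    ∏ l, (1 - Φ (h l) / M)) ∂A.law (k + 1)) / ((k : ℝ) + 1)

/-- The series of insertions at the array scaled by `c`. -/
noncomputable def insArrV (A : Arr) (c M : ℝ) (Φ : (ι → ℝ) → ℝ) (H : Mat n → ℝ)
    (θ : Fin n → (ι → ℝ) → ℝ) : ℝ :=
  ∑' k : ℕ, (negCoef n k : ℝ) * ∫ R, H (fun u v => c * R (Fin.castAdd k u) (Fin.castAdd k v)) *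
    GV (fun u v => c * R u v) (ratioTermV (k := k) M Φ θ) ∂A.law (n + k)

lemma abs_res_prod_le (hΦ : Wgt M Φ) {k : ℕ} (h : Fin k → ι → ℝ) :
    |∏ l, (1 - Φ (h l) / M)| ≤ (1 - 1 / M) ^ k := by
  rw [Finset.abs_prod]
  exact (Finset.prod_le_prod (fun l _ => abs_nonneg _) fun l _ => (Wgt.res_le hΦ _).2.1).trans_eq (by simp)

lemma abs_ratioTermV_le (hΦ : Wgt M Φ) {θ : Fin n → (ι → ℝ) → ℝ} {D : Fin n → ℝ}
    (hD : ∀ l y, |θ l y| ≤ D l) {k : ℕ} (h : Fin (n + k) → ι → ℝ) :
    |ratioTermV M Φ θ h| ≤ (∏ l, D l) * (1 - 1 / M) ^ k := by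
  rw [ratioTermV, abs_mul, Finset.abs_prod]
  refine mul_le_mul (Finset.prod_le_prod (fun l _ => abs_nonneg _) fun l _ => ?_) (abs_res_prod_le hΦ _)
    (abs_nonneg _) (Finset.prod_nonneg fun l _ => (abs_nonneg _).trans (hD l 0))
  rw [abs_mul]
  exact (mul_le_mul (hD l _) (Wgt.res_le hΦ _).2.2.1 (abs_nonneg _)
    ((abs_nonneg _).trans (hD l 0))).trans_eq (mul_one _)

omit [Fintype ι] in
lemma continuous_res_prod (hΦ : Wgt M Φ) {k : ℕ} :
    Continuous fun h : Fin k → ι → ℝ => ∏ l, (1 - Φ (h l) / M) :=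
  continuous_finsetProd _ fun l _ => continuous_const.sub ((hΦ.cont.comp (continuous_apply l)).div_const M)

omit [Fintype ι] in
lemma continuous_ratioTermV (hΦ : Wgt M Φ) {θ : Fin n → (ι → ℝ) → ℝ} (hθ : ∀ l, Continuous (θ l)) {k : ℕ} :
    Continuous (ratioTermV (k := k) M Φ θ) :=
  Continuous.mul
    (continuous_finsetProd _ fun l _ => ((hθ l).comp (continuous_apply _)).mul
      ((hΦ.cont.comp (continuous_apply _)).div_const M))
    (continuous_finsetProd _ fun l _ => continuous_const.sub ((hΦ.cont.comp (continuous_apply _)).div_const M))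

lemma posSemidef_scale {r : ℕ} (hc : 0 ≤ c) {R : Mat r} (hR : (Matrix.of R).PosSemidef) :
    (Matrix.of fun u v => c * R u v).PosSemidef :=
  hR.smul hc

/-- The covariance of a discretisation is the scaled matrix of its values. -/
lemma ccov_eq {K : ℕ} (D : Discr A K) (c : ℝ) {B : LMat D.r n} (hB : D.C.P n B ≠ 0) :
    ccov (fInc D.q c) (fRest D.q c) B = fun u v => c * qmat D.q B u v := by
  rw [D.qmat_eq (D.C.diag n B hB)]
  funext u v
  simp only [ccov, lcov, fInc, fRest, mul_add, Finset.mul_sum, mul_ite, mul_zero]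

/-- Averages at the discretisations tend to those at the array. -/
lemma tendsto_discr_GV (hc : 0 ≤ c) (D : ∀ K, Discr A (K + 2)) {H : Mat n → ℝ} (hH : Continuous H) {DH : ℝ}
    (hHb : ∀ R, |H R| ≤ DH) {Θ : (Fin n → ι → ℝ) → ℝ} (hΘ : Continuous Θ) {DΘ : ℝ} (hD : ∀ z, |Θ z| ≤ DΘ) :
    Tendsto (fun K => ∑ B, (D K).C.P n B * (H (fun u v => c * qmat (D K).q B u v) *
        GV (ccov (fInc (D K).q c) (fRest (D K).q c) B) Θ)) atTop
      (𝓝 (∫ R, H (fun u v => c * R u v) * GV (fun u v => c * R u v) Θ ∂A.law n)) := by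
  obtain ⟨G, hGc, hGb, hG⟩ := exists_GV_ext hΘ hD
  have hsc : Continuous fun (R : Mat n) u v => c * R u v := by fun_prop
  have hb : ∀ R : Mat n, |H (fun u v => c * R u v) * G (fun u v => c * R u v)| ≤ DH * DΘ := fun R => by
    rw [abs_mul]
    exact mul_le_mul (hHb _) (hGb _) (abs_nonneg _) ((abs_nonneg _).trans (hHb R))
  have h := P157.Low.tendsto_discr D ((hH.comp hsc).mul (hGc.comp hsc)) hb
  rw [integral_congr_ae ((A.ae_posSemidef n).mono fun R hR => by
    show H _ * G _ = H (fun u v => c * R u v) * GV (fun u v => c * R u v) Θ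
    rw [hG _ (posSemidef_scale hc hR)])] at h
  refine h.congr fun K => Finset.sum_congr rfl fun B _ => ?_
  rcases eq_or_ne ((D K).C.P n B) 0 with h0 | h0
  · rw [h0, zero_mul, zero_mul]
  · rw [ccov_eq (D K) c h0]
    show _ * (H _ * G _) = _
    rw [hG _ (posSemidef_scale hc ((D K).posSemidef_qmat h0))]

theorem tendsto_cascLog (hc : 0 ≤ c) (D : ∀ K, Discr A (K + 2)) (hΦ : Wgt M Φ) :
    Tendsto (fun K => cascLog (D K).C (fInc (D K).q c) (fRest (D K).q c) M Φ) atTop
      (𝓝 (logArrV A c M Φ)) := by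
  have hρ0 : 0 ≤ 1 - 1 / M := (abs_nonneg _).trans (Wgt.res_le hΦ 0).2.1
  refine tendsto_const_nhds.sub (tendsto_tsum_of_dominated_convergence
    (P157.Low.summable_pow_div hρ0 (Wgt.res_le hΦ 0).2.2.2) (fun k => ?_) (Eventually.of_forall fun K k => ?_))
  · simpa using ((tendsto_discr_GV hc D (H := fun _ => (1 : ℝ)) continuous_const (DH := 1) (fun _ => by simp)
      (continuous_res_prod hΦ) (abs_res_prod_le hΦ (k := k + 1))).div_const ((k : ℝ) + 1))
  · have hk : (0 : ℝ) < (k : ℝ) + 1 := by positivity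
    rw [Real.norm_eq_abs, abs_div, abs_of_pos hk]
    refine div_le_div_of_nonneg_right ((Finset.abs_sum_le_sum_abs _ _).trans ?_) hk.le
    refine (Finset.sum_le_sum (g := fun B => (D K).C.P (k + 1) B * (1 - 1 / M) ^ (k + 1)) fun B _ => ?_).trans_eq
      (by rw [← Finset.sum_mul, (D K).C.total, one_mul])
    rw [abs_mul, abs_of_nonneg ((D K).C.nonneg _ _)]
    exact mul_le_mul_of_nonneg_left (abs_GV_le _ (abs_res_prod_le hΦ)) ((D K).C.nonneg _ _)

theorem tendsto_cascIns (hc : 0 ≤ c) (D : ∀ K, Discr A (K + 2)) (hΦ : Wgt M Φ) {H : Mat n → ℝ}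
    (hH : Continuous H) {DH : ℝ} (hHb : ∀ R, |H R| ≤ DH) {θ : Fin n → (ι → ℝ) → ℝ} (hθ : ∀ l, BCV (θ l)) :
    Tendsto (fun K => cascIns (D K).C (fInc (D K).q c) (fRest (D K).q c) M Φ
        (fun B => H fun u v => c * qmat (D K).q B u v) θ) atTop (𝓝 (insArrV A c M Φ H θ)) := by
  have hρ0 : 0 ≤ 1 - 1 / M := (abs_nonneg _).trans (Wgt.res_le hΦ 0).2.1
  choose E hE using fun l => (hθ l).2
  have hsub : ∀ k, Continuous fun R : Mat (n + k) => H fun u v => R (Fin.castAdd k u) (Fin.castAdd k v) :=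
    fun k => hH.comp (by fun_prop)
  refine tendsto_tsum_of_dominated_convergence
    (P157.Low.summable_negCoef n hρ0 (Wgt.res_le hΦ 0).2.2.2 (DH * ∏ l, E l)) (fun k => ?_)
    (Eventually.of_forall fun K k => ?_)
  · have h := (tendsto_discr_GV hc D (hsub k) (fun R => hHb _) (continuous_ratioTermV hΦ (fun l => (hθ l).1))
      (abs_ratioTermV_le hΦ hE (k := k))).const_mul (negCoef n k : ℝ)
    refine h.congr fun K => ?_
    congr 1
    refine Finset.sum_congr rfl fun B _ => ?_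
    have e := fun u v => congrFun₂ (P157.Low.qmat_sub (D K).q B (Fin.castAdd_injective n k)) u v
    simp only [P157.Low.sub] at e
    simp only [e]
  · rw [Real.norm_eq_abs, abs_mul, Nat.abs_cast]
    refine mul_le_mul_of_nonneg_left ((Finset.abs_sum_le_sum_abs _ _).trans ?_) (Nat.cast_nonneg' _)
    refine (Finset.sum_le_sum (g := fun B => (D K).C.P (n + k) B * (DH * (∏ l, E l) * (1 - 1 / M) ^ k))
      fun B _ => ?_).trans_eq (by rw [← Finset.sum_mul, (D K).C.total, one_mul])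
    rw [abs_mul, abs_of_nonneg ((D K).C.nonneg _ _), mul_assoc DH, abs_mul]
    refine mul_le_mul_of_nonneg_left (mul_le_mul (hHb _) (abs_GV_le _ (abs_ratioTermV_le hΦ hE))
      (abs_nonneg _) ((abs_nonneg _).trans (hHb 0))) ((D K).C.nonneg _ _)

end Vale.Agent.P166F.Low
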