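import Vale.Agent.P166F.Haar.Stab
import Vale.Agent.P166F.Low.Fields.Cov

/-!
P166: a few rows of a uniform rotation inside many coordinates act on given vectors like independent
Gaussian rows.
-/

namespace Vale.Agent.P166F.Low

open MeasureTheory ProbabilityTheory WithLp Filter Matrix
open scoped RealInnerProductSpace Topology MatrixOrder
open Vale.Agent.P166F.Orth (Arr2 Fix StabLaw mm mm_apply)

variable {ι : Type} [Fintype ι] {N r : ℕ}

open scoped Classical in
/-- A square root close to the identity, for a positive semidefinite matrix close to it. -/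
lemma exists_root {C : ι → ι → ℝ} (hC : (of C).PosSemidef)
    (hclose : ∑ x, ∑ y, (C x y - if x = y then 1 else 0) ^ 2 < 1) :
    ∃ T V : ι → ι → ℝ, (∀ x y, ∑ z, T x z * T z y = C x y) ∧ (∀ x y, T x y = T y x) ∧
      (∀ x y, ∑ z, T x z * V z y = if x = y then 1 else 0) ∧ (∀ x y, ∑ z, V x z * T z y = if x = y then 1 else 0) ∧
      ∀ x y, (T x y - if x = y then 1 else 0) ^ 2 ≤
        ∑ x, ∑ y, (C x y - if x = y then 1 else 0) ^ 2 := by
  set T := CFC.sqrt (of C)
  have hTT : T * T = of C := CFC.sqrt_mul_sqrt_self _ hC.nonneg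
  have hT : T.PosSemidef := Matrix.nonneg_iff_posSemidef.1 (CFC.sqrt_nonneg _)
  have hTs : ∀ x y, T x y = T y x := fun x y => by simpa using congrFun₂ hT.1 y x
  set A := T - 1 with hA
  have hAA : A * (T + 1) = of C - 1 := by rw [hA, sub_mul, mul_add, mul_one, one_mul, hTT]; abel
  have hrow : ∀ x, ∑ y, A x y ^ 2 ≤ ∑ y, ((A * (T + 1)) x y) ^ 2 := fun x => by
    set u := A x
    have e : ∀ y, (A * (T + 1)) x y = vecMul u T y + u y := fun y => by
      rw [mul_add, mul_one]; rfl
    have h2 : 0 ≤ ∑ y, u y * vecMul u T y := by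
      have := hT.dotProduct_mulVec_nonneg u
      rw [star_trivial, dotProduct_mulVec, dotProduct_comm] at this
      exact this
    calc ∑ y, u y ^ 2 ≤ ∑ y, vecMul u T y ^ 2 + 2 * ∑ y, u y * vecMul u T y + ∑ y, u y ^ 2 := by
          linarith [Finset.sum_nonneg fun y (_ : y ∈ Finset.univ) => sq_nonneg (vecMul u T y)]
      _ = _ := by
          rw [Finset.mul_sum, ← Finset.sum_add_distrib, ← Finset.sum_add_distrib]
          exact Finset.sum_congr rfl fun y _ => by rw [e]; ring
  have hS : ∑ x, ∑ y, A x y ^ 2 ≤ ∑ x, ∑ y, (C x y - if x = y then 1 else 0) ^ 2 := by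
    refine (Finset.sum_le_sum fun x _ => hrow x).trans_eq ?_
    simp [hAA, Matrix.one_apply]
  have hinj : IsUnit T := by
    refine Matrix.mulVec_injective_iff_isUnit.1 fun u u' huu => sub_eq_zero.1 ?_
    set w := u - u'
    have hw : T *ᵥ w = 0 := by rw [mulVec_sub, huu, sub_self]
    have hAw : A *ᵥ w = -w := by rw [hA, sub_mulVec, hw, one_mulVec, zero_sub]
    have hsq : ∑ x, w x ^ 2 ≤ (∑ x, ∑ y, A x y ^ 2) * ∑ x, w x ^ 2 := by
      rw [Finset.sum_mul]
      refine Finset.sum_le_sum fun x _ => ?_
      have hx : ∑ y, A x y * w y = -w x := congrFun hAw x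
      rw [← neg_sq, ← hx]
      exact Finset.sum_mul_sq_le_sq_mul_sq Finset.univ (fun y => A x y) w
    have h0 : 0 ≤ ∑ x, w x ^ 2 := Finset.sum_nonneg fun x _ => sq_nonneg _
    have hz : ∑ x, w x ^ 2 = 0 := by nlinarith
    funext x
    simpa using (Finset.sum_eq_zero_iff_of_nonneg fun x _ => sq_nonneg (w x)).1 hz x (Finset.mem_univ x)
  obtain ⟨hl, hr⟩ : T * T⁻¹ = 1 ∧ T⁻¹ * T = 1 :=
    ⟨Matrix.mul_nonsing_inv _ ((Matrix.isUnit_iff_isUnit_det _).1 hinj),
      Matrix.nonsing_inv_mul _ ((Matrix.isUnit_iff_isUnit_det _).1 hinj)⟩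
  refine ⟨fun x y => T x y, fun x y => T⁻¹ x y, fun x y => ?_, hTs, fun x y => ?_, fun x y => ?_, fun x y => ?_⟩
  · simpa [Matrix.mul_apply] using congrFun₂ hTT x y
  · simpa [Matrix.mul_apply, Matrix.one_apply] using congrFun₂ hl x y
  · simpa [Matrix.mul_apply, Matrix.one_apply] using congrFun₂ hr x y
  · refine le_trans ?_ hS
    rw [show (T x y - if x = y then 1 else 0) = A x y by simp [hA, Matrix.one_apply]]
    exact (Finset.single_le_sum (fun y _ => sq_nonneg (A x y)) (Finset.mem_univ y)).trans
      (Finset.single_le_sum (fun x _ => Finset.sum_nonneg fun y _ => sq_nonneg (A x y)) (Finset.mem_univ x))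

variable {S : Finset (Fin N)} {μ : Measure (Arr2 N)}

open scoped Classical in
/-- Orthonormal rows supported off `S` extend to a rotation fixing `S`. -/
lemma exists_fix_rows {e : ι → Fin N} (he : Function.Injective e) (heS : ∀ x, e x ∉ S) (V : ι → Fin N → ℝ)
    (hon : ∀ x y, ∑ i, V x i * V y i = if x = y then 1 else 0) (hsupp : ∀ x, ∀ i ∈ S, V x i = 0) :
    ∃ W : Arr2 N, Fix S W ∧ ∀ x i, W (e x) i = V x i := by
  let v : Fin N → EuclideanSpace ℝ (Fin N) := fun i =>
    if h : ∃ x, e x = i then toLp 2 (V h.choose) else EuclideanSpace.single i 1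
  have hv : ∀ x, v (e x) = toLp 2 (V x) := fun x => by
    simp only [v, dif_pos (⟨x, rfl⟩ : ∃ y, e y = e x)]
    rw [he (⟨x, rfl⟩ : ∃ y, e y = e x).choose_spec]
  have hv' : ∀ i ∈ S, v i = EuclideanSpace.single i 1 := fun i hi =>
    dif_neg fun ⟨x, hx⟩ => heS x (hx ▸ hi)
  set A : Set (Fin N) := Set.range e ∪ ↑S
  have ho : Orthonormal ℝ (A.domRestrict v) := by
    refine orthonormal_iff_ite.2 fun ⟨i, hi⟩ ⟨j, hj⟩ => ?_
    simp only [Subtype.mk.injEq]
    change ⟪v i, v j⟫ = _
    rcases hi with ⟨x, rfl⟩ | hi <;> rcases hj with ⟨y, rfl⟩ | hj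
    · rw [hv, hv]
      simpa [PiLp.inner_apply, mul_comm, he.eq_iff] using hon x y
    · rw [hv, hv' j hj]
      simpa [EuclideanSpace.inner_single_right, show e x ≠ j from fun h => heS x (h ▸ hj)]
        using hsupp x j hj
    · rw [hv' i hi, hv]
      simpa [EuclideanSpace.inner_single_left, show i ≠ e y from fun h => heS y (h ▸ hi)]
        using hsupp y i hi
    · rw [hv' i hi, hv' j hj, EuclideanSpace.inner_single_left]
      simp
  obtain ⟨b, hb⟩ := ho.exists_orthonormalBasis_extension_of_card_eq (by simp)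
  refine ⟨fun i j => b i j, ⟨mul_eq_one_comm.1 ?_, fun i hi j => ⟨?_, ?_⟩⟩, fun x i => ?_⟩
  · ext i j
    have h := orthonormal_iff_ite.1 b.orthonormal i j
    simpa [Matrix.mul_apply, PiLp.inner_apply, Matrix.one_apply, mul_comm] using h
  · beta_reduce
    rw [hb i (Or.inr hi), hv' i hi]
    simp [eq_comm]
  · have h := orthonormal_iff_ite.1 b.orthonormal j i
    rw [hb i (Or.inr hi), hv' i hi, EuclideanSpace.inner_single_right] at h
    simpa [eq_comm] using h
  · beta_reduce
    rw [hb (e x) (Or.inl ⟨x, rfl⟩), hv]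

/-- The values of chosen rows on given vectors. -/
noncomputable def rowVal (e : ι → Fin N) (w : Fin r → Fin N → ℝ) (O : Arr2 N) : Fin r → ι → ℝ :=
  fun a x => ∑ j, O (e x) j * w a j

omit [Fintype ι] in
lemma continuous_rowVal (e : ι → Fin N) (w : Fin r → Fin N → ℝ) : Continuous (rowVal e w) :=
  continuous_pi fun a => continuous_pi fun x => by unfold rowVal; fun_prop

/-- Coordinates off `S` of a rotated vector have equal second moments. -/
lemma integral_sq_row (hμ : StabLaw S μ) {w : Fin N → ℝ} (hw : ∀ i ∈ S, w i = 0) {p : Fin N} (hp : p ∉ S) :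
    ((Sᶜ.card : ℝ)) * ∫ O, (∑ j, O p j * w j) ^ 2 ∂μ = ∑ j, w j ^ 2 := by
  classical
  have := hμ.prob
  have hc : ∀ q, Continuous fun O : Arr2 N => (∑ j, O q j * w j) ^ 2 := fun q => by fun_prop
  have hswap : ∀ q, q ∉ S → ∫ O, (∑ j, O q j * w j) ^ 2 ∂μ = ∫ O, (∑ j, O p j * w j) ^ 2 ∂μ := fun q hq => by
    set s := Equiv.swap p q
    set P : Arr2 N := fun i j => if s i = j then 1 else 0
    have hP : Fix S P := by
      refine ⟨mul_eq_one_comm.1 ?_, fun i hi j => ?_⟩
      · ext i j
        simp [Matrix.mul_apply, P, Matrix.one_apply]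
      · have hs : s i = i := Equiv.swap_apply_of_ne_of_ne (fun h => hp (h ▸ hi)) (fun h => hq (h ▸ hi))
        refine ⟨by simp [P, hs], ?_⟩
        simp only [P]
        refine if_congr ⟨fun h => ?_, fun h => ?_⟩ rfl rfl
        · exact (s.injective (h.trans hs.symm)).symm
        · rw [← h, hs]
    have h := hμ.integral_mm (hc p) hP
    rw [← h]
    refine integral_congr_ae (Eventually.of_forall fun O => ?_)
    simp [mm_apply, P, s]
  have hsum : ∀ᵐ O ∂μ, ∑ i ∈ Sᶜ, (∑ j, O i j * w j) ^ 2 = ∑ j, w j ^ 2 := hμ.fix.mono fun O hO => by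
    have h1 : ∑ i, (∑ j, O i j * w j) ^ 2 = ∑ j, w j ^ 2 := by
      have h := congrArg (fun M => w ⬝ᵥ M *ᵥ w) hO.1
      simp only [one_mulVec] at h
      rw [← mulVec_mulVec, dotProduct_mulVec, vecMul_transpose] at h
      simpa [dotProduct, mulVec, sq] using h
    rw [← h1, ← Finset.sum_compl_add_sum S, add_eq_left.2]
    · refine Finset.sum_eq_zero fun i hi => ?_
      rw [Finset.sum_congr rfl fun j _ => by rw [(hO.2 i hi j).1]]
      simp [hw i hi]
  have h := integral_congr_ae hsum
  rw [integral_finsetSum _ fun q _ => hμ.integrable (hc q),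
    Finset.sum_congr rfl fun q hq => hswap q (Finset.mem_compl.1 hq)] at h
  simpa using h

/-- Continuous functions are uniformly continuous on boxes, with slack. -/
lemma exists_delta {E : Type} [PseudoMetricSpace E] [ProperSpace E] {Θ : E → ℝ} (hΘ : Continuous Θ)
    (z₀ : E) (R : ℝ) {η : ℝ} (hη : 0 < η) :
    ∃ δ, 0 < δ ∧ ∀ y y', dist y z₀ ≤ R → dist y' y < δ → |Θ y' - Θ y| < η := by
  obtain ⟨δ, hδ, h⟩ := Metric.uniformContinuousOn_iff.1
    ((isCompact_closedBall z₀ (R + 1)).uniformContinuousOn_of_continuous hΘ.continuousOn) η hη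
  refine ⟨min δ 1, lt_min hδ one_pos, fun y y' hy hd => h y' ?_ y ?_ (hd.trans_le (min_le_left _ _))⟩
  · have := dist_triangle y' y z₀
    rw [Metric.mem_closedBall]
    linarith [hd.le.trans (min_le_right δ 1)]
  · rw [Metric.mem_closedBall]; linarith

/-- Rows of a uniform rotation act like Gaussian rows, uniformly in the vectors. -/
theorem rows_gauss {Θ : (Fin r → ι → ℝ) → ℝ} (hΘ : Continuous Θ) {D : ℝ} (hD : ∀ y, |Θ y| ≤ D)
    {B ε : ℝ} (hB : 0 ≤ B) (hε : 0 < ε) :
    ∃ m0 : ℕ, ∀ (N : ℕ) (S : Finset (Fin N)) (μ : Measure (Arr2 N)), StabLaw S μ → m0 ≤ Sᶜ.card →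
      ∀ e : ι → Fin N, Function.Injective e → (∀ x, e x ∉ S) → ∀ w : Fin r → Fin N → ℝ,
        (∀ a, ∀ i ∈ S, w a i = 0) → (∀ a, ∑ i, w a i ^ 2 ≤ B * Sᶜ.card) →
        |(∫ O, Θ (rowVal e w O) ∂μ) - GV (fun a b => (∑ i, w a i * w b i) / Sᶜ.card) Θ| ≤ ε := by
  classical
  have hD0 : 0 ≤ D := (abs_nonneg _).trans (hD 0)
  set γ := gaussianReal 0 1
  set γι := Measure.pi fun _ : ι => γ
  set h : ι → ι → (ι → ℝ) → ℝ := fun x y z => z x * z y - if x = y then 1 else 0
  set V0 := ∑ x, ∑ y, Var[h x y; γι]
  have hV0 : 0 ≤ V0 := Finset.sum_nonneg fun x _ => Finset.sum_nonneg fun y _ => variance_nonneg _ _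
  set k := (Fintype.card ι : ℝ)
  set R : ℝ := Real.sqrt (6 * D * ((r : ℝ) * k * B) / ε) + 1
  have hR : 0 < R := by positivity
  obtain ⟨δ, hδ, huc⟩ := exists_delta hΘ 0 R (show 0 < ε / 3 by positivity)
  set η : ℝ := min (1 / 2) ((δ / (2 * (k * R + 1))) ^ 2) with hηdef
  have hk : 0 ≤ k := Nat.cast_nonneg _
  have hη : 0 < η := lt_min one_half_pos (by positivity)
  refine ⟨⌈6 * D * V0 / (η * ε)⌉₊ + 1, fun N S μ hμ hm e he heS w hw hwB => ?_⟩
  have := hμ.prob
  set T0 : Finset (Fin N) := Sᶜ with hT0
  set m := (T0.card : ℝ) with hmdef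
  have hm1 : 1 ≤ m := by rw [hmdef]; exact_mod_cast le_trans (Nat.le_add_left 1 _) hm
  have hmV : 6 * D * V0 / (η * ε) ≤ m := (Nat.le_ceil _).trans (by rw [hmdef]; exact_mod_cast le_trans (Nat.le_succ _) hm)
  set γN := Measure.pi fun _ : Fin N => γι
  set K : (Fin N → ι → ℝ) → ι → ι → ℝ := fun g x y => (∑ i ∈ T0, g i x * g i y) / m with hK
  set bad : (Fin N → ι → ℝ) → ℝ := fun g => ∑ x, ∑ y, (K g x y - if x = y then 1 else 0) ^ 2 with hbad
  set Y := rowVal e w
  -- the average size of the rows
  have hY2 : ∫ O, ∑ a, ∑ x, Y O a x ^ 2 ∂μ ≤ r * k * B := by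
    have hi : ∀ a x, Integrable (fun O => Y O a x ^ 2) μ := fun a x =>
      hμ.integrable (((continuous_apply x).comp ((continuous_apply a).comp (continuous_rowVal e w))).pow 2)
    rw [integral_finsetSum _ fun a _ => integrable_finsetSum _ fun x _ => hi a x]
    refine (Finset.sum_le_sum (g := fun _ : Fin r => k * B) fun a _ => ?_).trans_eq (by simp; ring)
    rw [integral_finsetSum _ fun x _ => hi a x]
    refine (Finset.sum_le_sum (g := fun _ : ι => B) fun x _ => ?_).trans_eq (by simp [k])
    have h1 := integral_sq_row hμ (hw a) (heS x)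
    have h2 : m * ∫ O, Y O a x ^ 2 ∂μ ≤ m * B := (h1.trans_le (hwB a)).trans_eq (mul_comm _ _)
    exact le_of_mul_le_mul_left h2 (by positivity)
  -- the Gaussian rows
  set Z : (Fin N → ι → ℝ) → Arr2 N → Fin r → ι → ℝ :=
    fun g O a x => ∑ i, ((∑ j, O i j * w a j) / Real.sqrt m) * g i x with hZ
  have hgauss : ∀ᵐ O ∂μ, ∫ g, Θ (Z g O) ∂γN = GV (fun a b => (∑ i, w a i * w b i) / m) Θ :=
    hμ.fix.mono fun O hO => by
      refine (gauss_mix (fun a i => (∑ j, O i j * w a j) / Real.sqrt m) hΘ.measurable).trans ?_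
      congr 1
      funext a b
      simp only [div_mul_div_comm, Real.mul_self_sqrt (show 0 ≤ m by positivity), ← Finset.sum_div]
      congr 1
      have h := congrArg (fun M => w a ⬝ᵥ M *ᵥ w b) hO.1
      simp only [one_mulVec] at h
      rw [← mulVec_mulVec, dotProduct_mulVec, vecMul_transpose] at h
      simpa [dotProduct, mulVec] using h
  -- given near orthonormal Gaussian rows
  have hgood : ∀ g, bad g < η → |(∫ O, Θ (Z g O) ∂μ) - ∫ O, Θ (Y O) ∂μ| ≤ ε / 3 + 2 * D * (r * k * B) / R ^ 2 := by
    intro g hg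
    set G : ι → Fin N → ℝ := fun x i => if i ∈ T0 then g i x / Real.sqrt m else 0 with hG
    have hGG : ∀ x y, ∑ i, G x i * G y i = K g x y := fun x y => by
      simp only [hG, hK, ite_mul, zero_mul, mul_ite, mul_zero, div_mul_div_comm,
        Real.mul_self_sqrt (show 0 ≤ m by positivity), Finset.sum_div]
      simp
    have hpsd : (of (K g)).PosSemidef := by
      have h := P157.Low.gram_psd (n := Fintype.card ι)
        fun p => (toLp 2 (G ((Fintype.equivFin ι).symm p)) : EuclideanSpace ℝ (Fin N))
      have h' := h.submatrix (Fintype.equivFin ι)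
      convert h' using 1
      ext x y
      simp [PiLp.inner_apply, ← hGG, mul_comm]
    obtain ⟨T, V, hTT, hTs, hTV, hVT, hTI⟩ :=
      exists_root hpsd (hg.trans_le ((min_le_left _ _).trans (by norm_num)))
    obtain ⟨W, hW, hWrow⟩ := exists_fix_rows (S := S) he heS (fun x i => ∑ y, V x y * G y i)
      (fun x y => by
        have e1 : ∑ i, (∑ p, V x p * G p i) * (∑ q, V y q * G q i) =
            ∑ p, ∑ q, V x p * V y q * K g p q := by
          rw [Finset.sum_congr rfl fun i _ => Finset.sum_mul_sum _ _ _ _, Finset.sum_comm]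
          refine Finset.sum_congr rfl fun p _ => ?_
          rw [Finset.sum_comm]
          refine Finset.sum_congr rfl fun q _ => ?_
          rw [← hGG, Finset.mul_sum]
          exact Finset.sum_congr rfl fun i _ => by ring
        have e2 : ∀ p q, K g p q = ∑ z, T p z * T q z := fun p q => by
          rw [← hTT]; exact Finset.sum_congr rfl fun z _ => by rw [hTs z q]
        rw [e1]
        simp only [e2, Finset.mul_sum]
        rw [Finset.sum_congr rfl fun p _ => Finset.sum_comm, Finset.sum_comm]
        refine (Finset.sum_congr rfl fun z _ => ?_).trans (by simp : (∑ z, (if x = z then (1 : ℝ) else 0) *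
          if y = z then 1 else 0) = if x = y then 1 else 0)
        rw [← hVT x z, ← hVT y z, Finset.sum_mul_sum]
        exact Finset.sum_congr rfl fun p _ => Finset.sum_congr rfl fun q _ => by ring)
      (fun x i hi => Finset.sum_eq_zero fun y _ => by simp [hG, hT0, hi])
    set Y' : Arr2 N → Fin r → ι → ℝ := fun O a x => ∑ y, T x y * Y O a y with hY'
    have hrep : ∀ O, Fix S O → Z g O = Y' (mm W O) := fun O hO => by
      funext a x
      have hTV' : ∀ i, G x i = ∑ y, T x y * W (e y) i := fun i => by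
        simp only [hWrow, Finset.mul_sum]
        rw [Finset.sum_comm]
        simp only [← mul_assoc, ← Finset.sum_mul, hTV, ite_mul, one_mul, zero_mul, Finset.sum_ite_eq,
          Finset.mem_univ, if_true]
      have hz : ∀ i ∈ S, ∑ j, O i j * w a j = 0 := fun i hi => by
        rw [Finset.sum_congr rfl fun j _ => by rw [(hO.2 i hi j).1]]
        simp [hw a i hi]
      calc Z g O a x = ∑ i, G x i * ∑ j, O i j * w a j := by
            simp only [hZ]
            refine Finset.sum_congr rfl fun i _ => ?_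
            by_cases hi : i ∈ S
            · simp [hz i hi, hG, hT0, hi]
            · simp only [hG, hT0, Finset.mem_compl, hi, not_false_eq_true, if_true]; ring
        _ = Y' (mm W O) a x := by
            simp only [hTV', Finset.sum_mul_sum]
            rw [Finset.sum_comm]
            refine Finset.sum_congr rfl fun y _ => ?_
            rw [Finset.sum_comm]
            simp only [Y, rowVal, mm_apply, Finset.mul_sum, Finset.sum_mul]
            exact Finset.sum_congr rfl fun j _ => Finset.sum_congr rfl fun i _ => by ring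
    have hY'c : Continuous Y' := continuous_pi fun a => continuous_pi fun x => continuous_finsetSum _ fun y _ =>
      continuous_const.mul ((continuous_apply y).comp ((continuous_apply a).comp (continuous_rowVal e w)))
    rw [integral_congr_ae (hμ.fix.mono fun O hO => congrArg Θ (hrep O hO)),
      hμ.integral_mm (F := fun O => Θ (Y' O)) (hΘ.comp hY'c) hW,
      ← integral_sub (f := fun O => Θ (Y' O)) (g := fun O => Θ (Y O)) (hμ.integrable (hΘ.comp hY'c)) (hμ.integrable (hΘ.comp (continuous_rowVal e w)))]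
    have hTδ : ∀ x y, |T x y - if x = y then 1 else 0| ≤ δ / (2 * (k * R + 1)) := fun x y =>
      abs_le_of_sq_le_sq ((hTI x y).trans (hg.le.trans (min_le_right _ _))) (by positivity)
    have hpt : ∀ O, |Θ (Y' O) - Θ (Y O)| ≤ ε / 3 + 2 * D / R ^ 2 * ∑ a, ∑ x, Y O a x ^ 2 := fun O => by
      have hnn : 0 ≤ ∑ a, ∑ x, Y O a x ^ 2 :=
        Finset.sum_nonneg fun a _ => Finset.sum_nonneg fun x _ => sq_nonneg _
      by_cases hin : dist (Y O) 0 ≤ R
      · have hb : ∀ a x, |Y O a x| ≤ R := fun a x => by
          have h1 := (dist_pi_le_iff hR.le).1 hin a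
          have h2 := (dist_pi_le_iff hR.le).1 h1 x
          simpa [Real.dist_eq] using h2
        refine (huc _ _ hin ?_).le.trans (le_add_of_nonneg_right (by positivity))
        refine ((dist_pi_le_iff (show (0 : ℝ) ≤ δ / 2 by positivity)).2 fun a => (dist_pi_le_iff (by positivity)).2
          fun x => ?_).trans_lt (half_lt_self hδ)
        rw [Real.dist_eq, show Y' O a x - Y O a x = ∑ y, (T x y - if x = y then 1 else 0) * Y O a y by
          simp [hY', sub_mul, Finset.sum_sub_distrib]]
        refine (Finset.abs_sum_le_sum_abs _ _).trans ((Finset.sum_le_sum fun y _ => (abs_mul _ _).trans_le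
          (mul_le_mul (hTδ x y) (hb a y) (abs_nonneg _) (by positivity))).trans ?_)
        rw [Finset.sum_const, Finset.card_univ, nsmul_eq_mul]
        rw [show (Fintype.card ι : ℝ) * (δ / (2 * (k * R + 1)) * R) = δ / 2 * (k * R / (k * R + 1)) by
          simp only [k]; field_simp]
        refine mul_le_of_le_one_right (by positivity) ((div_le_one (by positivity)).2 (by linarith))
      · have hbig : R ^ 2 ≤ ∑ a, ∑ x, Y O a x ^ 2 := by
          by_contra hlt
          refine hin ((dist_pi_le_iff hR.le).2 fun a => (dist_pi_le_iff hR.le).2 fun x => ?_)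
          rw [Pi.zero_apply, Pi.zero_apply, Real.dist_eq, sub_zero]
          exact abs_le_of_sq_le_sq (((Finset.single_le_sum (fun x _ => sq_nonneg (Y O a x))
            (Finset.mem_univ x)).trans (Finset.single_le_sum
              (fun a _ => Finset.sum_nonneg fun x _ => sq_nonneg (Y O a x)) (Finset.mem_univ a))).trans
              (not_le.1 hlt).le) hR.le
        have h1 : 2 * D ≤ 2 * D / R ^ 2 * ∑ a, ∑ x, Y O a x ^ 2 := by
          rw [div_mul_eq_mul_div, le_div_iff₀ (by positivity)]
          exact mul_le_mul_of_nonneg_left hbig (by positivity)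
        have h2 := abs_sub (Θ (Y' O)) (Θ (Y O))
        linarith [hD (Y' O), hD (Y O), h2]
    have hS2 : Continuous fun O => ∑ a, ∑ x, Y O a x ^ 2 := continuous_finsetSum _ fun a _ =>
      continuous_finsetSum _ fun x _ => ((continuous_apply x).comp ((continuous_apply a).comp (continuous_rowVal e w))).pow 2
    rw [← Real.norm_eq_abs]
    refine (norm_integral_le_of_norm_le ((integrable_const _).add ((hμ.integrable hS2).const_mul _))
      (Eventually.of_forall fun O => (Real.norm_eq_abs _).trans_le (hpt O))).trans ?_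
    simp only [Pi.add_apply]
    rw [integral_add (integrable_const _) ((hμ.integrable hS2).const_mul _), integral_const, integral_const_mul]
    simp only [probReal_univ, one_smul]
    refine add_le_add le_rfl ((mul_le_mul_of_nonneg_left hY2 (by positivity)).trans_eq ?_)
    ring
  -- the rows are nearly orthonormal
  have hvar : ∫ g, bad g ∂γN ≤ V0 / m ∧ Integrable bad γN := by
    have hL2 : ∀ x y, MemLp (h x y) 2 γι := fun x y => by
      have hi : ∀ x : ι, Integrable (fun z : ι → ℝ => z x ^ 4) γι := fun x =>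
        integrable_comp_eval (μ := fun _ : ι => γ) (i := x) (f := fun t : ℝ => t ^ 4)
          (((memLp_id_gaussianReal (μ := 0) (v := 1) 4).integrable_norm_pow (by norm_num : (4 : ℕ) ≠ 0)).congr
            (Eventually.of_forall fun t => by simp [(by decide : Even 4).pow_abs]))
      refine (((memLp_two_iff_integrable_sq (by fun_prop)).2 ?_).sub (memLp_const _))
      refine (((hi x).add (hi y)).mono' (by fun_prop) (Eventually.of_forall fun z => ?_))
      rw [Real.norm_eq_abs, abs_of_nonneg (sq_nonneg _), Pi.add_apply]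
      nlinarith [sq_nonneg (z x ^ 2 - z y ^ 2), sq_nonneg (z x ^ 2), sq_nonneg (z y ^ 2)]
    have hmean : ∀ x y, ∫ z, h x y z ∂γι = 0 := fun x y => by
      have hid : Integrable (fun t : ℝ => t) γ := IsGaussian.integrable_id
      have hev : ∀ x : ι, Integrable (fun z : ι → ℝ => z x) γι := fun x =>
        integrable_comp_eval (μ := fun _ : ι => γ) (i := x) (f := fun t : ℝ => t) hid
      have hprod : Integrable (fun z : ι → ℝ => z x * z y) γι := by
        refine ((hL2 x y).integrable one_le_two).add (integrable_const (if x = y then (1 : ℝ) else 0)) |>.congr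
          (Eventually.of_forall fun z => ?_)
        simp [h]
      simp only [h]
      rw [integral_sub hprod (integrable_const _), integral_const, probReal_univ, one_smul]
      split_ifs with hxy
      · subst hxy
        have h1 : Var[fun t : ℝ => t; γ] = ((1 : NNReal) : ℝ) := variance_id_gaussianReal
        rw [variance_of_integral_eq_zero aemeasurable_id' integral_id_gaussianReal] at h1
        have h2 : ∫ z : ι → ℝ, z x * z x ∂γι = ∫ t, t ^ 2 ∂γ := by
          rw [← integral_comp_eval (μ := fun _ : ι => γ) (i := x) (f := fun t : ℝ => t ^ 2) (by fun_prop)]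
          simp [sq, γι]
        rw [h2, h1]; simp
      · have hind := (iIndepFun_pi (μ := fun _ : ι => γ) (X := fun _ t => t) fun _ => by fun_prop).indepFun hxy
        rw [hind.integral_fun_mul_eq_mul_integral (measurable_pi_apply x).aestronglyMeasurable
          (measurable_pi_apply y).aestronglyMeasurable,
          integral_comp_eval (μ := fun _ : ι => γ) (i := x) (f := fun t : ℝ => t) (by fun_prop),
          integral_id_gaussianReal, zero_mul, sub_zero]
    have hsum : ∀ x y, MemLp (fun g : Fin N → ι → ℝ => ∑ i ∈ T0, h x y (g i)) 2 γN ∧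
        ∫ g, (∑ i ∈ T0, h x y (g i)) ^ 2 ∂γN = m * Var[h x y; γι] := fun x y => by
      have hmp : ∀ i, MeasurePreserving (Function.eval i) γN γι := fun i => measurePreserving_eval _ i
      have hmem : MemLp (fun g : Fin N → ι → ℝ => ∑ i ∈ T0, h x y (g i)) 2 γN :=
        memLp_finsetSum _ fun i _ => (hL2 x y).comp_measurePreserving (hmp i)
      refine ⟨hmem, ?_⟩
      have hzero : ∫ g, (∑ i ∈ T0, h x y (g i)) ∂γN = 0 := by
        rw [integral_finsetSum (f := fun i (g : Fin N → ι → ℝ) => h x y (g i)) T0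
          fun i _ => ((hL2 x y).comp_measurePreserving (hmp i)).integrable one_le_two]
        exact Finset.sum_eq_zero fun i _ =>
          (integral_comp_eval (μ := fun _ : Fin N => γι) (i := i) (hL2 x y).1).trans (hmean x y)
      rw [← variance_of_integral_eq_zero hmem.1.aemeasurable hzero]
      have hv := variance_sum_pi (μ := fun _ : Fin N => γι)
        (X := fun i z => if i ∈ T0 then h x y z else 0) (fun i => by
          by_cases hi : i ∈ T0 <;> simp [hi, hL2 x y])
      have e : (∑ i, fun g : Fin N → ι → ℝ => if i ∈ T0 then h x y (g i) else 0) =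
          fun g => ∑ i ∈ T0, h x y (g i) := by
        funext g; simp [Finset.sum_apply]
      rw [e] at hv
      rw [hv, ← Finset.sum_subset (Finset.subset_univ T0) fun i _ hi => by
          simp only [hi, if_false]; exact variance_zero _,
        Finset.sum_congr rfl fun i hi => by simp only [hi, if_true]; rfl]
      simp [hmdef]
    have eK : ∀ g x y, K g x y - (if x = y then 1 else 0) = (∑ i ∈ T0, h x y (g i)) / m := fun g x y => by
      simp only [hK, h, Finset.sum_sub_distrib, Finset.sum_const, nsmul_eq_mul, sub_div]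
      rw [mul_div_cancel_left₀ _ (show (T0.card : ℝ) ≠ 0 by positivity)]
    have hi : ∀ x y, Integrable (fun g => ((∑ i ∈ T0, h x y (g i)) / m) ^ 2) γN := fun x y => by
      simpa [div_pow] using (hsum x y).1.integrable_sq.div_const (m ^ 2)
    simp only [hbad, eK]
    refine ⟨le_of_eq ?_, integrable_finsetSum _ fun x _ => integrable_finsetSum _ fun y _ => hi x y⟩
    rw [integral_finsetSum _ fun x _ => integrable_finsetSum _ fun y _ => hi x y]
    simp only [V0, Finset.sum_div]
    refine Finset.sum_congr rfl fun x _ => ?_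
    simp only [← Finset.sum_div]
    rw [integral_finsetSum _ fun y _ => hi x y, Finset.sum_div]
    refine Finset.sum_congr rfl fun y _ => ?_
    simp only [div_pow]
    rw [integral_div, (hsum x y).2]
    field_simp
  -- exchange the averages
  have hZc : Continuous fun p : (Fin N → ι → ℝ) × Arr2 N => Θ (Z p.1 p.2) := hΘ.comp (by fun_prop)
  have hint : Integrable (fun p : (Fin N → ι → ℝ) × Arr2 N => Θ (Z p.1 p.2)) (γN.prod μ) :=
    Integrable.of_bound hZc.aestronglyMeasurable D (Eventually.of_forall fun p => hD _)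
  have hswap : ∫ g, ∫ O, Θ (Z g O) ∂μ ∂γN = GV (fun a b => (∑ i, w a i * w b i) / m) Θ := by
    rw [integral_integral_swap hint, integral_congr_ae hgauss, integral_const, probReal_univ, one_smul]
  have hYD : |∫ O, Θ (Y O) ∂μ| ≤ D := by
    simpa [Real.norm_eq_abs] using norm_integral_le_of_norm_le_const (μ := μ) (f := fun O => Θ (Y O))
      (C := D) (Eventually.of_forall fun O => hD _)
  have hZD : ∀ g, |∫ O, Θ (Z g O) ∂μ| ≤ D := fun g => by
    simpa [Real.norm_eq_abs] using norm_integral_le_of_norm_le_const (μ := μ) (f := fun O => Θ (Z g O))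
      (C := D) (Eventually.of_forall fun O => hD _)
  have hbound : ∀ g, |(∫ O, Θ (Z g O) ∂μ) - ∫ O, Θ (Y O) ∂μ| ≤
      ε / 3 + 2 * D * (r * k * B) / R ^ 2 + 2 * D / η * bad g := fun g => by
    have hb0 : 0 ≤ bad g := Finset.sum_nonneg fun x _ => Finset.sum_nonneg fun y _ => sq_nonneg _
    by_cases hg : bad g < η
    · exact (hgood g hg).trans (le_add_of_nonneg_right (by positivity))
    · have h1 : 2 * D ≤ 2 * D / η * bad g := by
        rw [div_mul_eq_mul_div, le_div_iff₀ hη]
        exact mul_le_mul_of_nonneg_left (not_lt.1 hg) (by positivity)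
      have h2 := abs_sub (∫ O, Θ (Z g O) ∂μ) (∫ O, Θ (Y O) ∂μ)
      have h3 : 0 ≤ 2 * D * (r * k * B) / R ^ 2 := by positivity
      linarith [hZD g]
  have hiO : Integrable (fun g => ∫ O, Θ (Z g O) ∂μ) γN := hint.integral_prod_left
  rw [← hswap, abs_sub_comm]
  have e1 : (∫ g, ∫ O, Θ (Z g O) ∂μ ∂γN) - ∫ O, Θ (Y O) ∂μ =
      ∫ g, ((∫ O, Θ (Z g O) ∂μ) - ∫ O, Θ (Y O) ∂μ) ∂γN := by
    rw [integral_sub hiO (integrable_const _), integral_const, probReal_univ, one_smul]
  rw [e1, ← Real.norm_eq_abs]
  refine (norm_integral_le_of_norm_le ((integrable_const _).add (hvar.2.const_mul _))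
    (Eventually.of_forall fun g => (Real.norm_eq_abs _).trans_le (hbound g))).trans ?_
  simp only [Pi.add_apply]
  rw [integral_add (integrable_const _) (hvar.2.const_mul _), integral_const, probReal_univ, one_smul,
    integral_const_mul]
  have hR2 : 2 * D * (r * k * B) / R ^ 2 ≤ ε / 3 := by
    rw [div_le_iff₀ (by positivity)]
    have h1 : 6 * D * ((r : ℝ) * k * B) / ε ≤ R ^ 2 := by
      refine le_trans ?_ (pow_le_pow_left₀ (Real.sqrt_nonneg _) (le_add_of_nonneg_right zero_le_one) 2)
      rw [Real.sq_sqrt (by positivity)]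
    rw [div_le_iff₀ hε] at h1
    linarith
  have hbd : 2 * D / η * ∫ g, bad g ∂γN ≤ ε / 3 := by
    refine (mul_le_mul_of_nonneg_left hvar.1 (by positivity)).trans ?_
    rw [div_mul_div_comm, div_le_iff₀ (by positivity)]
    rw [div_le_iff₀ (by positivity)] at hmV
    linarith
  linarith

end Vale.Agent.P166F.Low
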