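import Vale.Agent.P166F.Low.Rot
import Vale.Agent.P166F.Low.Fields.Series
import Vale.Agent.P166F.Low.Fields.Spread

/-!
P166: along a regime with a limit array the fields are Gaussian with the limiting covariance.
-/

namespace Vale.Agent.P166F.Low

open MeasureTheory ProbabilityTheory Filter
open scoped Topology RealInnerProductSpace
open Vale.Agent.P157.Low (Mat Arr Discr incr qmat lcov)
open Vale.Agent.P166N.Spectrum (OrthInvLaw)
open Vale.Agent.P166F.Orth (Arr2 Fix StabLaw mm mm_apply)

variable {κ : Type} [DecidableEq κ] {N P n r : ℕ} {dl : κ → ℝ} {lbl : Fin N → κ} {e f : κ} {s : ℝ}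
  {y : CIdx Unit P → ℝ}

/-- The coordinates inside class `e`. -/
noncomputable def cvec (lbl : Fin N → κ) (e : κ) (U : Fin N → Fin N → ℝ) (σ : Fin N → Bool) (i : Fin N) : ℝ :=
  if lbl i = e then coord U σ i else 0

/-- The coordinates off class `e`. -/
def outside (lbl : Fin N → κ) (e : κ) : Finset (Fin N) := Finset.univ.filter fun i => lbl i ≠ e

lemma compl_outside (lbl : Fin N → κ) (e : κ) :
    ((outside lbl e)ᶜ).card = csize lbl e := by
  rw [csize, outside]
  congr 1
  ext i
  simp

lemma coord_mm_sum (O U : Fin N → Fin N → ℝ) (σ : Fin N → Bool) (i : Fin N) :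
    coord (mm O U) σ i = ∑ j, O i j * coord U σ j := by
  simp only [coord, mm_apply, Finset.sum_mul, Finset.mul_sum]
  rw [Finset.sum_comm]
  exact Finset.sum_congr rfl fun j _ => Finset.sum_congr rfl fun k _ => by ring

lemma coord_mm_out {O : Fin N → Fin N → ℝ} (hO : Fix (outside lbl e) O) (U : Fin N → Fin N → ℝ)
    (σ : Fin N → Bool) {i : Fin N} (hi : lbl i ≠ e) : coord (mm O U) σ i = coord U σ i := by
  rw [coord_mm_sum, Finset.sum_congr rfl fun j _ => by
    rw [(hO.2 i (Finset.mem_filter.2 ⟨Finset.mem_univ i, hi⟩) j).1]]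
  simp

lemma coord_mm_in {O : Fin N → Fin N → ℝ} (hO : Fix (outside lbl e) O) (U : Fin N → Fin N → ℝ)
    (σ : Fin N → Bool) {i : Fin N} (hi : lbl i = e) :
    coord (mm O U) σ i = ∑ j, O i j * cvec lbl e U σ j := by
  rw [coord_mm_sum]
  refine Finset.sum_congr rfl fun j _ => ?_
  simp only [cvec]
  split_ifs with hj
  · rfl
  · rw [(hO.2 j (Finset.mem_filter.2 ⟨Finset.mem_univ j, hj⟩) i).2, if_neg fun h => hj (by rw [h]; exact hi)]
    simp

lemma continuous_cvec (σ : Fin N → Bool) (i : Fin N) : Continuous fun U => cvec lbl e U σ i := by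
  simp only [cvec]
  split_ifs
  · exact continuous_coord σ i
  · exact continuous_const

lemma featV_mm {O : Fin N → Fin N → ℝ} (hO : Fix (outside lbl e) O) (hef : f ≠ e)
    (U : Fin N → Fin N → ℝ) (σ : Fin N → Bool) : featV n lbl f (mm O U) σ = featV n lbl f U σ := by
  simp only [featV]
  congr 1
  funext i
  split_ifs with hi
  · rw [coord_mm_out hO U σ (fun h => hef (hi.symm.trans h))]
  · rfl

/-- A rotation inside class `e` keeps the weights. -/
lemma pertH_mm {O : Fin N → Fin N → ℝ} (hO : Fix (outside lbl e) O) (hef : f ≠ e)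
    (U : Fin N → Fin N → ℝ) (g : EuclideanSpace ℝ (GIdx Unit P N)) (σ : Fin N → Bool) :
    pertH dl n lbl f s y (mm O U) g σ = pertH dl n lbl f s y U g σ := by
  simp only [pertH, featV_mm hO hef]
  congr 2
  simp only [clsEnergy]
  congr 1
  have hsum : ∑ i, coord (mm O U) σ i ^ 2 = ∑ i, coord U σ i ^ 2 := by
    have h := congrArg (fun M => dotProduct (coord U σ) (Matrix.mulVec M (coord U σ))) hO.1
    simp only [Matrix.one_mulVec] at h
    rw [← Matrix.mulVec_mulVec, Matrix.dotProduct_mulVec, Matrix.vecMul_transpose] at h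
    simp only [coord_mm_sum]
    simpa [dotProduct, Matrix.mulVec, sq] using h
  rw [← sub_eq_zero, ← Finset.sum_sub_distrib, Finset.sum_congr rfl (g := fun i =>
    dl e * (coord (mm O U) σ i ^ 2 - coord U σ i ^ 2)) fun i _ => ?_, ← Finset.mul_sum,
    Finset.sum_sub_distrib, hsum, sub_self, mul_zero]
  by_cases hi : lbl i = e
  · rw [hi]; ring
  · rw [coord_mm_out hO U σ hi]; ring

lemma abs_class_le {U : Fin N → Fin N → ℝ} (hU : (Matrix.of U).transpose * Matrix.of U = 1)
    (σ τ : Fin N → Bool) (j : κ) : |∑ i, if lbl i = j then coord U σ i * coord U τ i else 0| ≤ N := by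
  refine (Finset.abs_sum_le_sum_abs _ _).trans ?_
  refine (Finset.sum_le_sum (g := fun i => (coord U σ i ^ 2 + coord U τ i ^ 2) / 2) fun i _ => ?_).trans_eq ?_
  · split_ifs
    · rw [abs_le]
      constructor <;> nlinarith [sq_nonneg (coord U σ i - coord U τ i), sq_nonneg (coord U σ i + coord U τ i)]
    · rw [abs_zero]; positivity
  · rw [← Finset.sum_div, Finset.sum_add_distrib, sum_sq_coord hU, sum_sq_coord hU]; ring

/-- A continuous function moves little between close matrices, and boundedly otherwise. -/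
lemma near_ext {r : ℕ} {G : Mat r → ℝ} {D R0 δ η : ℝ} (hGb : ∀ C, |G C| ≤ D) (hR0 : 0 ≤ R0) (hδ : 0 < δ)
    (hη : 0 ≤ η) (huc : ∀ y y', dist y 0 ≤ R0 → dist y' y < δ → |G y' - G y| < η) {s c : Mat r}
    (hs : ∀ u v, |s u v| ≤ R0) :
    |G c - G s| ≤ η + 2 * D / δ ^ 2 * ∑ u, ∑ v, (s u v - c u v) ^ 2 := by
  have hD0 : 0 ≤ D := (abs_nonneg _).trans (hGb 0)
  set E := ∑ u, ∑ v, (s u v - c u v) ^ 2
  have hE0 : 0 ≤ E := Finset.sum_nonneg fun u _ => Finset.sum_nonneg fun v _ => sq_nonneg _
  by_cases hd : dist c s < δ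
  · refine (huc _ _ ?_ hd).le.trans (le_add_of_nonneg_right (by positivity))
    refine (dist_pi_le_iff hR0).2 fun u => (dist_pi_le_iff hR0).2 fun v => ?_
    rw [Pi.zero_apply, Pi.zero_apply, Real.dist_eq, sub_zero]
    exact hs u v
  · have hbig : δ ^ 2 ≤ E := by
      by_contra hlt
      refine hd ((dist_pi_lt_iff hδ).2 fun u => (dist_pi_lt_iff hδ).2 fun v => ?_)
      rw [Real.dist_eq, abs_sub_comm]
      refine abs_lt_of_sq_lt_sq ?_ hδ.le
      exact ((Finset.single_le_sum (fun v _ => sq_nonneg (s u v - c u v))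
        (Finset.mem_univ v)).trans (Finset.single_le_sum (f := fun u => ∑ v, (s u v - c u v) ^ 2)
          (fun u _ => Finset.sum_nonneg fun v _ => sq_nonneg _) (Finset.mem_univ u))).trans_lt (not_le.1 hlt)
    have h3 : 2 * D ≤ 2 * D / δ ^ 2 * E := by
      rw [div_mul_eq_mul_div, le_div_iff₀ (by positivity)]
      exact mul_le_mul_of_nonneg_left hbig (by positivity)
    linarith [abs_sub (G c) (G s), hGb c, hGb s]

namespace Regime

variable {K : ℕ} {a : Atoms K} {i0 : Fin K} (R : Regime a i0) {β : ℝ}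
  {ν : (N : ℕ) → Measure (Fin N → Fin N → ℝ)}

lemma frac_cls : Tendsto (fun i => (csize (R.base i).lbl (some i0) : ℝ) / R.N i) atTop (𝓝 (a.wt i0 - R.θ)) ∧
    Tendsto (fun i => (csize (R.base i).lbl none : ℝ) / R.N i) atTop (𝓝 R.θ) := by
  constructor
  · have h := R.frac (some i0)
    simp only [vA, Option.elim_some, if_true, Real.sq_sqrt (sub_nonneg.2 R.θmem.2.le)] at h
    exact h
  · have h := R.frac none
    simp only [vA, Option.elim_none, Real.sq_sqrt R.θmem.1.le] at h
    exact h

lemma pgibbs_sum {ι : Type} (S : Finset ι) (i : ℕ) {r : ℕ} (U : Fin (R.N i) → Fin (R.N i) → ℝ)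
    (g : EuclideanSpace ℝ (GIdx Unit (R.P i) (R.N i))) (F : ι → (Fin r → Fin (R.N i) → Bool) → ℝ) :
    pgibbs (dlA a β i0) (R.n i) (R.base i).lbl none (R.s i) (R.y i) U g (fun x => ∑ j ∈ S, F j x) =
      ∑ j ∈ S, pgibbs (dlA a β i0) (R.n i) (R.base i).lbl none (R.s i) (R.y i) U g (F j) := by
  simp only [pgibbs, Finset.mul_sum]
  rw [Finset.sum_comm, Finset.sum_div]

/-- Averages of functions close to one another are close. -/
lemma abs_avg_sub_le (hν : ∀ N, OrthInvLaw N (ν N)) (i : ℕ) {r : ℕ}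
    {Θ Θ' G : (Fin (R.N i) → Fin (R.N i) → ℝ) → (Fin r → Fin (R.N i) → Bool) → ℝ}
    (h1 : ∀ x, Continuous fun U => Θ U x) (h2 : ∀ x, Continuous fun U => Θ' U x)
    (h3 : ∀ x, Continuous fun U => G U x) {B : ℝ}
    (b : ∀ U x, (Matrix.of U).transpose * Matrix.of U = 1 → |Θ U x| ≤ B ∧ |Θ' U x| ≤ B ∧ |G U x| ≤ B)
    (h : ∀ U x, (Matrix.of U).transpose * Matrix.of U = 1 → |Θ U x - Θ' U x| ≤ G U x) :
    |R.avg β ν i Θ - R.avg β ν i Θ'| ≤ R.avg β ν i G := by
  have := R.prob_dlaw hν i
  have := (hν (R.N i)).prob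
  show |(∫ z, pgibbs (dlA a β i0) (R.n i) (R.base i).lbl none (R.s i) (R.y i) z.1 z.2 (Θ z.1) ∂(R.dlaw ν i)) -
      ∫ z, pgibbs (dlA a β i0) (R.n i) (R.base i).lbl none (R.s i) (R.y i) z.1 z.2 (Θ' z.1) ∂(R.dlaw ν i)| ≤
    ∫ z, pgibbs (dlA a β i0) (R.n i) (R.base i).lbl none (R.s i) (R.y i) z.1 z.2 (G z.1) ∂(R.dlaw ν i)
  rw [← integral_sub (R.integrable_of_orth hν i (continuous_pgibbs h1) fun z hz =>
      abs_pgibbs_le fun x => (b z.1 x hz).1)
    (R.integrable_of_orth hν i (continuous_pgibbs h2) fun z hz => abs_pgibbs_le fun x => (b z.1 x hz).2.1),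
    ← Real.norm_eq_abs]
  refine norm_integral_le_of_norm_le (R.integrable_of_orth hν i (continuous_pgibbs h3) fun z hz =>
    abs_pgibbs_le fun x => (b z.1 x hz).2.2) ((R.ae_orth hν i).mono fun z hz => ?_)
  rw [Real.norm_eq_abs]
  have e : ∀ Ψ : (Fin r → Fin (R.N i) → Bool) → ℝ,
      pgibbs (dlA a β i0) (R.n i) (R.base i).lbl none (R.s i) (R.y i) z.1 z.2 (fun x => -Ψ x) =
        -pgibbs (dlA a β i0) (R.n i) (R.base i).lbl none (R.s i) (R.y i) z.1 z.2 Ψ := fun Ψ => by
    simpa using pgibbs_mul_left (Θ := Ψ) (-1)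
  rw [sub_eq_add_neg, ← e, ← pgibbs_add, abs_le, ← e]
  exact ⟨pgibbs_mono fun x => by linarith [(abs_le.1 (h z.1 x hz)).1],
    pgibbs_mono fun x => by linarith [(abs_le.1 (h z.1 x hz)).2]⟩

/-- The fields may be averaged over rotations of their class. -/
lemma avg_rot (hν : ∀ N, OrthInvLaw N (ν N)) (i : ℕ) {r : ℕ}
    {μ : Measure (Arr2 (R.N i))} (hμ : StabLaw (outside (R.base i).lbl (some i0)) μ)
    {H : Mat r → ℝ} (hH : Continuous H) {DH : ℝ} (hHb : ∀ M, |H M| ≤ DH)
    {Θ : (Fin r → Fld (some i0 : Option (Fin K)) → ℝ) → ℝ} (hΘ : Continuous Θ) {D : ℝ} (hD : ∀ z, |Θ z| ≤ D) :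
    R.avg β ν i (fun U x => H (R.cov i U x) * Θ fun l => R.field i U (x l)) =
      R.avg β ν i fun U x => H (R.cov i U x) *
        ∫ O, Θ (rowVal (R.base i).row (fun l => cvec (R.base i).lbl (some i0) U (x l)) O) ∂μ := by
  have := R.prob_dlaw hν i
  have := (hν (R.N i)).prob
  have := hμ.prob
  set F : (Fin (R.N i) → Fin (R.N i) → ℝ) × EuclideanSpace ℝ (GIdx Unit (R.P i) (R.N i)) → ℝ := fun z =>
    pgibbs (dlA a β i0) (R.n i) (R.base i).lbl none (R.s i) (R.y i) z.1 z.2
      fun x : Fin r → Fin (R.N i) → Bool => H (R.cov i z.1 x) * Θ fun l => R.field i z.1 (x l) with hF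
  have hcov : ∀ x : Fin r → Fin (R.N i) → Bool, Continuous fun U => R.cov i U x := fun x =>
    continuous_pi fun u => continuous_pi fun v => R.continuous_cov i x u v
  have hFc : Continuous F := continuous_pgibbs
    (Ξ := fun U (x : Fin r → Fin (R.N i) → Bool) => H (R.cov i U x) * Θ fun l => R.field i U (x l))
    fun x => (hH.comp (hcov x)).mul (hΘ.comp (continuous_pi fun l => R.continuous_field i (x l)))
  have hFb : ∀ z, |F z| ≤ DH * D := fun z => abs_pgibbs_le fun x => by
    rw [abs_mul]; exact mul_le_mul (hHb _) (hD _) (abs_nonneg _) ((abs_nonneg _).trans (hHb (R.cov i z.1 x)))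
  have hinv : ∀ᵐ O ∂μ, ∫ z, F (mm O z.1, z.2) ∂(R.dlaw ν i) = ∫ z, F z ∂(R.dlaw ν i) := hμ.fix.mono fun O hO => by
    have h1 : MeasurePreserving (mm O) (ν (R.N i)) (ν (R.N i)) :=
      ⟨(Orth.continuous_mm_right O).measurable, (hν (R.N i)).invariant (Matrix.of O) hO.1⟩
    have h2 := h1.prod (MeasurePreserving.id (stdGaussian (EuclideanSpace ℝ (GIdx Unit (R.P i) (R.N i)))))
    conv_rhs => rw [show R.dlaw ν i = _ from h2.map_eq.symm]
    rw [integral_map h2.measurable.aemeasurable hFc.aestronglyMeasurable]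
    rfl
  have hjc : Continuous fun p : Arr2 (R.N i) × ((Fin (R.N i) → Fin (R.N i) → ℝ) ×
      EuclideanSpace ℝ (GIdx Unit (R.P i) (R.N i))) => F (mm p.1 p.2.1, p.2.2) :=
    hFc.comp ((Orth.continuous_mm.comp (continuous_fst.prodMk (continuous_fst.comp continuous_snd))).prodMk
      (continuous_snd.comp continuous_snd))
  have hji : Integrable (fun p : Arr2 (R.N i) × ((Fin (R.N i) → Fin (R.N i) → ℝ) ×
      EuclideanSpace ℝ (GIdx Unit (R.P i) (R.N i))) => F (mm p.1 p.2.1, p.2.2)) (μ.prod (R.dlaw ν i)) :=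
    Integrable.of_bound hjc.aestronglyMeasurable _ (Eventually.of_forall fun p => hFb _)
  show ∫ z, F z ∂(R.dlaw ν i) = _
  rw [show ∫ z, F z ∂(R.dlaw ν i) = ∫ O, ∫ z, F (mm O z.1, z.2) ∂(R.dlaw ν i) ∂μ by
    rw [integral_congr_ae hinv, integral_const, probReal_univ, one_smul], integral_integral_swap hji]
  refine integral_congr_ae (Eventually.of_forall fun z => ?_)
  have hne : (none : Option (Fin K)) ≠ some i0 := by simp
  have hpt : ∀ᵐ O ∂μ, F (mm O z.1, z.2) = pgibbs (dlA a β i0) (R.n i) (R.base i).lbl none (R.s i) (R.y i)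
      z.1 z.2 fun x : Fin r → Fin (R.N i) → Bool => H (R.cov i z.1 x) *
        Θ (rowVal (R.base i).row (fun l => cvec (R.base i).lbl (some i0) z.1 (x l)) O) := hμ.fix.mono fun O hO => by
    simp only [hF, pgibbs, pertH_mm hO hne]
    congr 1
    refine Finset.sum_congr rfl fun x _ => ?_
    congr 2
    · congr 1
      funext u v
      simp only [cov, gramF, featV_mm hO hne]
    · congr 1
      funext l p
      exact coord_mm_in hO z.1 (x l) ((R.base i).inRest p)
  show ∫ O, F (mm O z.1, z.2) ∂μ = _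
  rw [integral_congr_ae hpt]
  simp only [pgibbs]
  rw [integral_div, integral_finsetSum]
  · congr 1
    exact Finset.sum_congr rfl fun x _ => by rw [integral_const_mul, integral_const_mul]
  · exact fun x _ => ((hμ.integrable (hΘ.comp (continuous_rowVal _ _))).const_mul _).const_mul _

/-- The covariance inside the class of the fields. -/
noncomputable def spread (i : ℕ) (U : Fin (R.N i) → Fin (R.N i) → ℝ) {r : ℕ}
    (x : Fin r → Fin (R.N i) → Bool) : Mat r := fun u v =>
  (∑ j, cvec (R.base i).lbl (some i0) U (x u) j * cvec (R.base i).lbl (some i0) U (x v) j) /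
    csize (R.base i).lbl (some i0)

lemma continuous_spread (i : ℕ) {r : ℕ} (x : Fin r → Fin (R.N i) → Bool) :
    Continuous fun U => R.spread i U x := by
  refine continuous_pi fun u => continuous_pi fun v => Continuous.div_const (continuous_finsetSum _ fun j _ => ?_) _
  simp only [cvec]
  split_ifs
  · exact (continuous_coord _ j).mul (continuous_coord _ j)
  · exact continuous_const

/-- The covariance inside the class of the fields follows that of the perturbed class. -/
lemma spread_close (hν : ∀ N, OrthInvLaw N (ν N)) (u v : Fin 2) :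
    Tendsto (fun i => R.avg β ν i (r := 2) fun U x => (R.spread i U x u v - R.cov i U x u v) ^ 2) atTop (𝓝 0) := by
  obtain ⟨C, hC⟩ := split_concentrates (κ := Option (Fin K))
  obtain ⟨he, hf⟩ := R.frac_cls
  have hwθ : 0 < a.wt i0 - R.θ := sub_pos.2 R.θmem.2
  set me := fun i => (csize (R.base i).lbl (some i0) : ℝ)
  set mf := fun i => (csize (R.base i).lbl none : ℝ)
  have hNn : Tendsto (fun i => (R.n i : ℝ) / R.N i) atTop (𝓝 (R.ρ * R.θ)) := by
    refine (R.scale.mul hf).congr' ?_
    filter_upwards [hf.eventually_const_lt R.θmem.1] with i hi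
    have : mf i ≠ 0 := fun h => by simp [mf] at h; simp [h] at hi
    simp only [mf] at this
    field_simp
  have hq : Tendsto (fun i => ((R.n i : ℝ) / mf i - R.ρ) ^ 2) atTop (𝓝 0) := by
    simpa using ((R.scale.sub_const R.ρ).pow 2)
  have hsmall : Tendsto (fun i => |C| * (((R.N i : ℝ) / me i) * ((R.N i : ℝ) / mf i)) ^ 2 *
      ((((R.P i : ℝ) + 1) ^ 4 * (1 + R.s i ^ 2) / R.n i) * ((R.n i : ℝ) / R.N i) +
        Real.sqrt (((R.P i : ℝ) + 1) ^ 4 * (1 + R.s i ^ 2) / R.n i))) atTop (𝓝 0) := by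
    have h1 : Tendsto (fun i => (R.N i : ℝ) / me i) atTop (𝓝 (a.wt i0 - R.θ)⁻¹) :=
      (he.inv₀ hwθ.ne').congr fun i => by simp [me]
    have h2 : Tendsto (fun i => (R.N i : ℝ) / mf i) atTop (𝓝 R.θ⁻¹) :=
      (hf.inv₀ R.θmem.1.ne').congr fun i => by simp [mf]
    simpa using (((h1.mul h2).pow 2).const_mul |C|).mul ((R.small.mul hNn).add R.small.sqrt)
  have hlim := (hsmall.const_mul 2).add (hq.const_mul 2)
  simp only [mul_zero, add_zero] at hlim
  refine squeeze_zero' (Eventually.of_forall fun i => integral_nonneg fun z =>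
    pgibbs_nonneg fun x => sq_nonneg _) ?_ hlim
  filter_upwards [he.eventually_const_lt hwθ, hf.eventually_const_lt R.θmem.1,
    R.top.eventually_ge_atTop 1] with i hei hfi hN1
  have hN0 : (0 : ℝ) < R.N i := by exact_mod_cast hN1
  have hme : 0 < me i := (div_pos_iff_of_pos_right hN0).1 hei
  have hmf : 0 < mf i := (div_pos_iff_of_pos_right hN0).1 hfi
  have hn0 : (0 : ℝ) < R.n i := hN0.trans (by exact_mod_cast R.le i)
  have hNle : (R.N i : ℝ) ≤ R.n i := by exact_mod_cast (R.le i).le
  have := R.prob_dlaw hν i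
  have := (hν (R.N i)).prob
  set cls := fun (j : Option (Fin K)) (U : Fin (R.N i) → Fin (R.N i) → ℝ) (x : Fin 2 → Fin (R.N i) → Bool) =>
    ∑ k, if (R.base i).lbl k = j then coord U (x u) k * coord U (x v) k else 0 with hcls
  set Dd := fun U x => mf i * cls (some i0) U x - me i * cls none U x with hDd
  have hclsc : ∀ j x, Continuous fun U => cls j U x := fun j x => continuous_finsetSum _ fun k _ => by
    split_ifs
    · exact (continuous_coord _ k).mul (continuous_coord _ k)
    · exact continuous_const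
  have hspl := hC (R.P i) (R.N i) (R.n i) (dlA a β i0) (R.base i).lbl (some i0) none (R.s i) (R.y i)
    (ν (R.N i)) (hν _) (R.le i).le hN1 (by simp) (by simp [dlA]) (R.nonneg i) (R.box i) u v
  have hpt : ∀ U x, (Matrix.of U).transpose * Matrix.of U = 1 →
      (R.spread i U x u v - R.cov i U x u v) ^ 2 ≤
        2 / (me i * mf i) ^ 2 * Dd U x ^ 2 + 2 * ((R.n i : ℝ) / mf i - R.ρ) ^ 2 := fun U x hU => by
    have hs : R.spread i U x u v = cls (some i0) U x / me i := by
      simp only [spread, cls, me, cvec, ite_mul, zero_mul, mul_ite, mul_zero]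
      congr 1
      exact Finset.sum_congr rfl fun k _ => by split_ifs <;> rfl
    have hc : R.cov i U x u v = R.ρ / R.n i * cls none U x := by
      have hmax : max (R.n i) (R.N i) = R.n i := max_eq_left (R.le i).le
      simp only [cov, gramF, featV, PiLp.inner_apply, RCLike.inner_apply, conj_trivial, cls, hmax,
        Finset.mul_sum]
      refine Finset.sum_congr rfl fun k _ => ?_
      split_ifs
      · rw [div_mul_div_comm, Real.mul_self_sqrt (Nat.cast_nonneg' _)]; ring
      · simp
    set q := ((R.n i : ℝ) / mf i - R.ρ) * (cls none U x / R.n i)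
    have hqb : q ^ 2 ≤ ((R.n i : ℝ) / mf i - R.ρ) ^ 2 := by
      rw [mul_pow]
      refine mul_le_of_le_one_right (sq_nonneg _) ?_
      rw [← sq_abs, abs_div, abs_of_pos hn0]
      exact pow_le_one₀ (by positivity) ((div_le_one hn0).2 ((abs_class_le hU _ _ _).trans hNle))
    have e : R.spread i U x u v - R.cov i U x u v = Dd U x / (me i * mf i) + q := by
      rw [hs, hc]; simp only [Dd, q]; field_simp; ring
    rw [e]
    calc (Dd U x / (me i * mf i) + q) ^ 2 ≤ 2 * (Dd U x / (me i * mf i)) ^ 2 + 2 * q ^ 2 := by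
          nlinarith [sq_nonneg (Dd U x / (me i * mf i) - q)]
      _ ≤ _ := by
          rw [div_pow, show 2 * (Dd U x ^ 2 / (me i * mf i) ^ 2) = 2 / (me i * mf i) ^ 2 * Dd U x ^ 2 by ring]
          linarith
  refine le_trans (integral_mono_of_nonneg (Eventually.of_forall fun z => pgibbs_nonneg fun x => sq_nonneg _)
    (g := fun z => 2 / (me i * mf i) ^ 2 * pgibbs (dlA a β i0) (R.n i) (R.base i).lbl none (R.s i) (R.y i)
      z.1 z.2 (fun x => Dd z.1 x ^ 2) + 2 * ((R.n i : ℝ) / mf i - R.ρ) ^ 2) ?_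
    ((R.ae_orth hν i).mono fun z hz => ?_)) ?_
  · refine Integrable.add (Integrable.const_mul (R.integrable_of_orth hν i (continuous_pgibbs
      (Ξ := fun U (x : Fin 2 → Fin (R.N i) → Bool) => Dd U x ^ 2) fun x =>
        ((continuous_const.mul (hclsc _ x)).sub (continuous_const.mul (hclsc _ x))).pow 2)
      (B := ((mf i + me i) * R.N i) ^ 2) fun z hz => abs_pgibbs_le fun x => ?_) _) (integrable_const _)
    rw [abs_of_nonneg (sq_nonneg _), ← sq_abs]
    refine pow_le_pow_left₀ (abs_nonneg _) ?_ 2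
    have b1 := mul_le_mul_of_nonneg_left (abs_class_le (lbl := (R.base i).lbl) hz (x u) (x v) (some i0)) hmf.le
    have b2 := mul_le_mul_of_nonneg_left (abs_class_le (lbl := (R.base i).lbl) hz (x u) (x v) none) hme.le
    refine (abs_sub _ _).trans ?_
    rw [abs_mul, abs_mul, abs_of_pos hmf, abs_of_pos hme]
    linarith
  · refine (pgibbs_mono fun x => hpt z.1 x hz).trans_eq ?_
    rw [pgibbs_add, pgibbs_mul_left, pgibbs_const]
  · rw [integral_add, integral_const, probReal_univ, one_smul, integral_const_mul]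
    · refine add_le_add ?_ le_rfl
      refine (mul_le_mul_of_nonneg_left hspl (by positivity)).trans ?_
      have hP : ((R.P i : ℝ) + 1) ^ 2 *
          (1 / (R.N i : ℝ) + R.s i / Real.sqrt (R.n i) + R.s i ^ 2 / R.n i) ≤
          ((R.P i : ℝ) + 1) ^ 4 * (1 + R.s i ^ 2) / R.n i * ((R.n i : ℝ) / R.N i) +
            Real.sqrt (((R.P i : ℝ) + 1) ^ 4 * (1 + R.s i ^ 2) / R.n i) := by
        have e1 : 1 / (R.N i : ℝ) + R.s i ^ 2 / R.n i = ((R.n i : ℝ) / R.N i + R.s i ^ 2) / R.n i := by
          field_simp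
        have h1 : 1 ≤ (R.n i : ℝ) / R.N i := (one_le_div hN0).2 hNle
        have h2 : ((R.P i : ℝ) + 1) ^ 2 ≤ ((R.P i : ℝ) + 1) ^ 4 :=
          pow_le_pow_right₀ (le_add_of_nonneg_left (Nat.cast_nonneg' _)) (by norm_num)
        have h3 : ((R.P i : ℝ) + 1) ^ 2 * (1 / (R.N i : ℝ) + R.s i ^ 2 / R.n i) ≤
            ((R.P i : ℝ) + 1) ^ 4 * (1 + R.s i ^ 2) / R.n i * ((R.n i : ℝ) / R.N i) := by
          rw [e1, mul_div_assoc', div_mul_eq_mul_div]
          refine div_le_div_of_nonneg_right ?_ hn0.le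
          rw [mul_assoc]
          refine mul_le_mul h2 ?_ (by positivity) (by positivity)
          nlinarith [mul_le_mul_of_nonneg_left h1 (sq_nonneg (R.s i))]
        have h4 : ((R.P i : ℝ) + 1) ^ 2 * (R.s i / Real.sqrt (R.n i)) ≤
            Real.sqrt (((R.P i : ℝ) + 1) ^ 4 * (1 + R.s i ^ 2) / R.n i) := by
          rw [Real.sqrt_div (by positivity), ← mul_div_assoc]
          refine div_le_div_of_nonneg_right (Real.le_sqrt_of_sq_le ?_) (Real.sqrt_nonneg _)
          rw [mul_pow, ← pow_mul]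
          exact mul_le_mul_of_nonneg_left (le_add_of_nonneg_left zero_le_one) (by positivity)
        linarith
      calc 2 / (me i * mf i) ^ 2 * (C * ((R.P i : ℝ) + 1) ^ 2 * (R.N i : ℝ) ^ 4 *
            (1 / (R.N i : ℝ) + R.s i / Real.sqrt (R.n i) + R.s i ^ 2 / R.n i))
          ≤ 2 / (me i * mf i) ^ 2 * (|C| * (R.N i : ℝ) ^ 4 *
              (((R.P i : ℝ) + 1) ^ 4 * (1 + R.s i ^ 2) / R.n i * ((R.n i : ℝ) / R.N i) +
                Real.sqrt (((R.P i : ℝ) + 1) ^ 4 * (1 + R.s i ^ 2) / R.n i))) := by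
            refine mul_le_mul_of_nonneg_left ?_ (by positivity)
            rw [show C * ((R.P i : ℝ) + 1) ^ 2 * (R.N i : ℝ) ^ 4 *
              (1 / (R.N i : ℝ) + R.s i / Real.sqrt (R.n i) + R.s i ^ 2 / R.n i) =
              C * (R.N i : ℝ) ^ 4 * (((R.P i : ℝ) + 1) ^ 2 *
                (1 / (R.N i : ℝ) + R.s i / Real.sqrt (R.n i) + R.s i ^ 2 / R.n i)) by ring]
            have hs0 := R.nonneg i
            exact mul_le_mul (mul_le_mul_of_nonneg_right (le_abs_self C) (by positivity)) hP (by positivity)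
              (by positivity)
        _ = _ := by field_simp
    · exact (R.integrable_of_orth hν i (continuous_pgibbs
        (Ξ := fun U (x : Fin 2 → Fin (R.N i) → Bool) => Dd U x ^ 2) fun x =>
          ((continuous_const.mul (hclsc _ x)).sub (continuous_const.mul (hclsc _ x))).pow 2)
        (B := ((mf i + me i) * R.N i) ^ 2) fun z hz => abs_pgibbs_le fun x => by
          rw [abs_of_nonneg (sq_nonneg _), ← sq_abs]
          refine pow_le_pow_left₀ (abs_nonneg _) ?_ 2
          have b1 := mul_le_mul_of_nonneg_left (abs_class_le (lbl := (R.base i).lbl) hz (x u) (x v) (some i0)) hmf.le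
          have b2 := mul_le_mul_of_nonneg_left (abs_class_le (lbl := (R.base i).lbl) hz (x u) (x v) none) hme.le
          refine (abs_sub _ _).trans ?_
          rw [abs_mul, abs_mul, abs_of_pos hmf, abs_of_pos hme]
          linarith).const_mul _
    · exact integrable_const _

/-- Overlaps of any two replicas follow those of the perturbed class. -/
lemma pair_close (hν : ∀ N, OrthInvLaw N (ν N)) {r : ℕ} (u v : Fin r) :
    Tendsto (fun i => R.avg β ν i (r := r) fun U x =>
      (R.spread i U x u v - R.cov i U x u v) ^ 2) atTop (𝓝 0) := by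
  rcases eq_or_ne u v with rfl | huv
  · refine (R.spread_close (β := β) hν 0 0).congr fun i => integral_congr_ae (Eventually.of_forall fun z => ?_)
    refine (pgibbs_marg (e := fun _ : Fin 1 => (0 : Fin 2)) (fun p q _ => Subsingleton.elim p q)
      (fun y : Fin 1 → Fin (R.N i) → Bool => (R.spread i z.1 y 0 0 - R.cov i z.1 y 0 0) ^ 2)).trans
      (pgibbs_marg (e := fun _ : Fin 1 => u) (fun p q _ => Subsingleton.elim p q)
      (fun y : Fin 1 → Fin (R.N i) → Bool => (R.spread i z.1 y 0 0 - R.cov i z.1 y 0 0) ^ 2)).symm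
  · refine (R.spread_close (β := β) hν 0 1).congr fun i => integral_congr_ae (Eventually.of_forall fun z => ?_)
    refine (pgibbs_marg (e := ![u, v]) ?_
      (fun y : Fin 2 → Fin (R.N i) → Bool => (R.spread i z.1 y 0 1 - R.cov i z.1 y 0 1) ^ 2)).symm
    intro p q hpq
    fin_cases p <;> fin_cases q <;> simp_all [eq_comm]

lemma posSemidef_spread (i : ℕ) (U : Fin (R.N i) → Fin (R.N i) → ℝ) {r : ℕ}
    (x : Fin r → Fin (R.N i) → Bool) : (Matrix.of (R.spread i U x)).PosSemidef := by
  set m := (csize (R.base i).lbl (some i0) : ℝ)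
  have hg := P157.Low.gram_psd fun l : Fin r =>
    (WithLp.toLp 2 (fun j => cvec (R.base i).lbl (some i0) U (x l) j / Real.sqrt m) :
      EuclideanSpace ℝ (Fin (R.N i)))
  convert hg using 1
  ext u v
  simp only [spread, Matrix.of_apply, PiLp.inner_apply, RCLike.inner_apply, conj_trivial,
    div_mul_div_comm, Real.mul_self_sqrt (Nat.cast_nonneg' _), ← Finset.sum_div, m]
  congr 1
  exact Finset.sum_congr rfl fun j _ => mul_comm _ _

/-- The average of an affine function of the squared differences. -/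
lemma avg_sq_affine (hν : ∀ N, OrthInvLaw N (ν N)) (i : ℕ) {r : ℕ} {B : ℝ}
    (hsp : ∀ U (x : Fin r → Fin (R.N i) → Bool), (Matrix.of U).transpose * Matrix.of U = 1 →
      ∀ u v, |R.spread i U x u v| ≤ B) (b d DH : ℝ) :
    R.avg β ν i (r := r) (fun U x => DH * (b + d * ∑ u, ∑ v, (R.spread i U x u v - R.cov i U x u v) ^ 2)) =
      DH * (b + d * ∑ u, ∑ v, R.avg β ν i (r := r) fun U x => (R.spread i U x u v - R.cov i U x u v) ^ 2) := by
  have := R.prob_dlaw hν i
  have hint : ∀ u v, Integrable (fun z => pgibbs (dlA a β i0) (R.n i) (R.base i).lbl none (R.s i) (R.y i)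
      z.1 z.2 (r := r) fun x => (R.spread i z.1 x u v - R.cov i z.1 x u v) ^ 2) (R.dlaw ν i) := fun u v =>
    R.integrable_of_orth hν i (continuous_pgibbs
      (Ξ := fun U (x : Fin r → Fin (R.N i) → Bool) => (R.spread i U x u v - R.cov i U x u v) ^ 2)
      fun x => (((continuous_apply v).comp ((continuous_apply u).comp (R.continuous_spread i x))).sub
        (R.continuous_cov i x u v)).pow 2) (B := (B + R.ρ) ^ 2) fun z hz => abs_pgibbs_le fun x => by
      rw [abs_of_nonneg (sq_nonneg _), ← sq_abs]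
      exact pow_le_pow_left₀ (abs_nonneg _)
        ((abs_sub _ _).trans (add_le_add (hsp z.1 x hz u v) (R.abs_cov_le i hz x u v))) 2
  have hs1 : Integrable (fun z => ∑ u, ∑ v, pgibbs (dlA a β i0) (R.n i) (R.base i).lbl none (R.s i) (R.y i)
      z.1 z.2 (r := r) fun x => (R.spread i z.1 x u v - R.cov i z.1 x u v) ^ 2) (R.dlaw ν i) :=
    integrable_finsetSum _ fun u _ => integrable_finsetSum _ fun v _ => hint u v
  simp only [avg, pmean]
  simp only [pgibbs_mul_left, pgibbs_add, pgibbs_const, R.pgibbs_sum]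
  show ∫ z, DH * (b + d * _) ∂(R.dlaw ν i) = _
  rw [integral_const_mul, integral_add (integrable_const _) (hs1.const_mul _), integral_const,
    probReal_univ, one_smul, integral_const_mul,
    integral_finsetSum _ fun u _ => integrable_finsetSum _ fun v _ => hint u v]
  simp only [integral_finsetSum _ fun v _ => hint _ v]
  rfl

variable {c : ℝ} {A : Arr}

lemma posSemidef_smul_of {r : ℕ} {c : ℝ} (hc : 0 ≤ c) {M : Mat r} (hM : (Matrix.of M).PosSemidef) :
    (Matrix.of fun u v => c * M u v).PosSemidef := by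
  have h := hM.smul hc
  exact h

/-- The fields are Gaussian in the limit. -/
theorem Conv.field_limit {R : Regime a i0} (hν : ∀ N, OrthInvLaw N (ν N)) (h : R.Conv β ν c A) {r : ℕ}
    {H : Mat r → ℝ} (hH : Continuous H) {DH : ℝ} (hHb : ∀ M, |H M| ≤ DH)
    {Θ : (Fin r → Fld (some i0 : Option (Fin K)) → ℝ) → ℝ} (hΘ : Continuous Θ) {D : ℝ} (hD : ∀ z, |Θ z| ≤ D) :
    Tendsto (fun i => R.avg β ν i fun U x => H (R.cov i U x) * Θ fun l => R.field i U (x l)) atTop
      (𝓝 (∫ M, H (fun u v => c * M u v) * GV (fun u v => c * M u v) Θ ∂A.law r)) := by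
  classical
  have hD0 : 0 ≤ D := (abs_nonneg _).trans (hD 0)
  have hDH0 : 0 ≤ DH := (abs_nonneg _).trans (hHb 0)
  obtain ⟨G, hGc, hGb, hG⟩ := exists_GV_ext hΘ hD
  have hb := h.lim r (fun M => H M * G M) (hH.mul hGc)
  rw [integral_congr_ae ((A.ae_posSemidef r).mono fun M hM => by
    show H (fun u v => c * M u v) * G (fun u v => c * M u v) = H (fun u v => c * M u v) * GV (fun u v => c * M u v) Θ
    rw [hG _ (posSemidef_smul_of h.pos.le hM)])] at hb
  refine tendsto_of_tendsto_of_dist hb (Metric.tendsto_nhds.2 fun ε hε => ?_)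
  obtain ⟨he, hf⟩ := R.frac_cls
  have hwθ : 0 < a.wt i0 - R.θ := sub_pos.2 R.θmem.2
  set B := 2 / (a.wt i0 - R.θ)
  have hB : 0 < B := div_pos two_pos hwθ
  set η := ε / (6 * (DH + 1))
  have hη : 0 < η := by positivity
  obtain ⟨m0, hm0⟩ := rows_gauss (r := r) hΘ hD hB.le hη
  obtain ⟨δ, hδ, huc⟩ := exists_delta hGc (0 : Mat r) (max B R.ρ) hη
  have hpair := fun u v : Fin r => R.pair_close (β := β) hν u v
  have herr : Tendsto (fun i => 2 * D / δ ^ 2 * ∑ u, ∑ v, R.avg β ν i (r := r) fun U x =>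
      (R.spread i U x u v - R.cov i U x u v) ^ 2) atTop (𝓝 0) := by
    simpa using ((tendsto_finsetSum _ fun u _ => tendsto_finsetSum _ fun v _ => hpair u v).const_mul (2 * D / δ ^ 2))
  have hhalf : (a.wt i0 - R.θ) / 2 < a.wt i0 - R.θ := by linarith
  have hlarge : ∀ᶠ i in atTop, m0 ≤ csize (R.base i).lbl (some i0) := by
    have := (he.pos_mul_atTop hwθ (tendsto_natCast_atTop_atTop.comp R.top)).eventually_ge_atTop (m0 : ℝ)
    filter_upwards [this, R.top.eventually_ge_atTop 1] with i hi hN1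
    have : (R.N i : ℝ) ≠ 0 := by positivity
    simp only [Function.comp_apply, div_mul_cancel₀ _ this] at hi
    exact_mod_cast hi
  filter_upwards [he.eventually_const_lt hhalf, R.top.eventually_ge_atTop 1, hlarge,
    herr.eventually_lt_const hη] with i hei hN1 hlg herri
  have hN0 : (0 : ℝ) < R.N i := by exact_mod_cast hN1
  set m := (csize (R.base i).lbl (some i0) : ℝ)
  have hNm : (R.N i : ℝ) ≤ B * m := by
    rw [lt_div_iff₀ hN0] at hei
    rw [div_mul_eq_mul_div, le_div_iff₀ hwθ]
    linarith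
  have hm : 0 < m := pos_of_mul_pos_right (hN0.trans_le hNm) hB.le
  obtain ⟨μ, hμ⟩ := StabLaw.exists (outside (R.base i).lbl (some i0))
  have := hμ.prob
  set J := fun U (x : Fin r → Fin (R.N i) → Bool) =>
    ∫ O, Θ (rowVal (R.base i).row (fun l => cvec (R.base i).lbl (some i0) U (x l)) O) ∂μ with hJ
  have hJc : ∀ x, Continuous fun U => J U x := fun x => hμ.continuous_integral
    (F := fun U O => Θ (rowVal (R.base i).row (fun l => cvec (R.base i).lbl (some i0) U (x l)) O))
    (hΘ.comp (continuous_pi fun l => continuous_pi fun p => continuous_finsetSum _ fun j _ =>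
      Continuous.mul (f := fun q : (Fin (R.N i) → Fin (R.N i) → ℝ) × Arr2 (R.N i) => q.2 ((R.base i).row p) j)
        (by fun_prop) ((continuous_cvec (x l) j).comp continuous_fst)))
  have hJb : ∀ U x, |J U x| ≤ D := fun U x => by
    simpa [hJ, Real.norm_eq_abs] using norm_integral_le_of_norm_le_const (μ := μ)
      (f := fun O => Θ (rowVal (R.base i).row (fun l => cvec (R.base i).lbl (some i0) U (x l)) O))
      (C := D) (Eventually.of_forall fun O => hD _)
  rw [Real.dist_eq, sub_zero, Real.dist_eq, abs_abs, R.avg_rot hν i hμ hH hHb hΘ hD, abs_sub_comm]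
  set E := fun U (x : Fin r → Fin (R.N i) → Bool) => ∑ u, ∑ v, (R.spread i U x u v - R.cov i U x u v) ^ 2
  have hsp : ∀ U (x : Fin r → Fin (R.N i) → Bool), (Matrix.of U).transpose * Matrix.of U = 1 →
      ∀ u v, |R.spread i U x u v| ≤ B := fun U x hU u v => by
    simp only [spread, cvec, ite_mul, zero_mul, mul_ite, mul_zero]
    rw [abs_div, abs_of_pos hm, div_le_iff₀ hm]
    refine le_trans (le_of_eq ?_) ((abs_class_le (lbl := (R.base i).lbl) hU (x u) (x v) (some i0)).trans hNm)
    congr 1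
    exact Finset.sum_congr rfl fun k _ => by split_ifs <;> rfl
  have hclose : ∀ U x, (Matrix.of U).transpose * Matrix.of U = 1 →
      |H (R.cov i U x) * J U x - H (R.cov i U x) * G (R.cov i U x)| ≤
        DH * (2 * η + 2 * D / δ ^ 2 * E U x) := fun U x hU => by
    rw [← mul_sub, abs_mul]
    refine mul_le_mul (hHb _) ?_ (abs_nonneg _) hDH0
    have h1 := hm0 (R.N i) _ μ hμ (by rwa [compl_outside]) (R.base i).row (R.base i).inj
      (fun p => by simp [outside, (R.base i).inRest p]) (fun l => cvec (R.base i).lbl (some i0) U (x l))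
      (fun l j hj => if_neg (Finset.mem_filter.1 hj).2)
      (fun l => by
        rw [compl_outside]
        refine le_trans ?_ hNm
        rw [← sum_sq_coord hU (x l)]
        refine Finset.sum_le_sum fun j _ => ?_
        simp only [cvec]; split_ifs
        · exact le_rfl
        · rw [zero_pow two_ne_zero]; positivity)
    rw [compl_outside] at h1
    have hpsd := R.posSemidef_spread i U x
    have h1' : |J U x - G (R.spread i U x)| ≤ η := by rw [hG _ hpsd]; exact h1
    have hE0 : 0 ≤ E U x := Finset.sum_nonneg fun u _ => Finset.sum_nonneg fun v _ => sq_nonneg _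
    have h2 : |G (R.cov i U x) - G (R.spread i U x)| ≤ η + 2 * D / δ ^ 2 * E U x :=
      near_ext hGb (le_max_of_le_left hB.le) hδ hη.le huc fun u v => (hsp U x hU u v).trans (le_max_left _ _)
    calc |J U x - G (R.cov i U x)| ≤ |J U x - G (R.spread i U x)| + |G (R.spread i U x) - G (R.cov i U x)| :=
          abs_sub_le _ _ _
      _ ≤ _ := by rw [abs_sub_comm (G (R.spread i U x))]; linarith
  have hcov : ∀ x : Fin r → Fin (R.N i) → Bool, Continuous fun U => R.cov i U x := fun x =>
    continuous_pi fun u => continuous_pi fun v => R.continuous_cov i x u v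
  have hEc : ∀ x, Continuous fun U => E U x := fun x => continuous_finsetSum _ fun u _ =>
    continuous_finsetSum _ fun v _ => (((continuous_apply v).comp ((continuous_apply u).comp
      (R.continuous_spread i x))).sub (R.continuous_cov i x u v)).pow 2
  have hEb : ∀ U x, (Matrix.of U).transpose * Matrix.of U = 1 →
      0 ≤ E U x ∧ E U x ≤ (r : ℝ) * ((r : ℝ) * (B + R.ρ) ^ 2) := fun U x hU => by
    refine ⟨Finset.sum_nonneg fun u _ => Finset.sum_nonneg fun v _ => sq_nonneg _, ?_⟩
    refine (Finset.sum_le_sum (g := fun _ : Fin r => (r : ℝ) * (B + R.ρ) ^ 2) fun u _ => ?_).trans_eq (by simp)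
    refine (Finset.sum_le_sum (g := fun _ : Fin r => (B + R.ρ) ^ 2) fun v _ => ?_).trans_eq (by simp)
    rw [← sq_abs]
    exact pow_le_pow_left₀ (abs_nonneg _) ((abs_sub _ _).trans (add_le_add (hsp U x hU u v) (R.abs_cov_le i hU x u v))) 2
  set EB := DH * D + DH * (2 * η + 2 * D / δ ^ 2 * ((r : ℝ) * ((r : ℝ) * (B + R.ρ) ^ 2)))
  have hρ := R.ρpos
  refine lt_of_le_of_lt (R.abs_avg_sub_le hν i (fun x => (hH.comp (hcov x)).mul (hJc x))
    (fun x => (hH.comp (hcov x)).mul (hGc.comp (hcov x)))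
    (G := fun U x => DH * (2 * η + 2 * D / δ ^ 2 * E U x))
    (fun x => continuous_const.mul (continuous_const.add (continuous_const.mul (hEc x))))
    (B := EB) (fun U x hU => ?_) hclose) ?_
  · obtain ⟨e0, e1⟩ := hEb U x hU
    have t1 : DH * D ≤ EB := le_add_of_nonneg_right (by positivity)
    refine ⟨?_, ?_, ?_⟩
    · rw [abs_mul]; exact (mul_le_mul (hHb _) (hJb U x) (abs_nonneg _) hDH0).trans t1
    · rw [abs_mul]; exact (mul_le_mul (hHb _) (hGb _) (abs_nonneg _) hDH0).trans t1
    · rw [abs_of_nonneg (by positivity)]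
      refine le_add_of_nonneg_of_le (by positivity) ?_
      gcongr
  · have e := R.avg_sq_affine (β := β) hν i (r := r) hsp (2 * η) (2 * D / δ ^ 2) DH
    rw [e]
    calc DH * (2 * η + 2 * D / δ ^ 2 * ∑ u, ∑ v, R.avg β ν i (r := r) fun U x =>
            (R.spread i U x u v - R.cov i U x u v) ^ 2) ≤ DH * (3 * η) := by
          refine mul_le_mul_of_nonneg_left ?_ hDH0; linarith
      _ < ε := by
          have : DH * (3 * η) = ε / 2 * (DH / (DH + 1)) := by simp only [η]; field_simp; ring
          rw [this]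
          have : DH / (DH + 1) ≤ 1 := (div_le_one (by linarith)).2 (by linarith)
          nlinarith

end Regime

end Vale.Agent.P166F.Low
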